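import Mathlib.Topology.Homeomorph.Lemmas

namespace Vale.Agent.P093

/-- The marker property: for every `L` there is an open set `V` which is disjoint from `h⁻ⁿ V`,
`0 < n < L`, and which is visited by every orbit. -/
def MarkerProperty {X : Type*} [TopologicalSpace X] (h : X ≃ₜ X) : Prop :=
  ∀ L : ℕ, ∃ V : Set X, IsOpen V ∧ (∀ n : ℤ, 0 < n → n < L → ∀ x ∈ V, (h ^ n) x ∉ V) ∧
    ∀ x, ∃ i : ℤ, (h ^ i) x ∈ V

end Vale.Agent.P093
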