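import Mathlib.Topology.Homeomorph.Lemmas

namespace Vale.Agent.P093

/-- the shift on `K^ℤ`: `(shiftZ K y) n = y (n + 1)` -/
def shiftZ (K : Type*) [TopologicalSpace K] : (ℤ → K) ≃ₜ (ℤ → K) where
  toFun y n := y (n + 1)
  invFun y n := y (n - 1)
  left_inv y := by
    funext n
    simp
  right_inv y := by
    funext n
    simp
  continuous_toFun := continuous_pi fun n => continuous_apply (n + 1)
  continuous_invFun := continuous_pi fun n => continuous_apply (n - 1)

end Vale.Agent.P093
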