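import Vale.Agent.P093.H598.Section
import Vale.Agent.P093.H598.ShiftDef

set_option linter.all false

/-! Lower bound for the homological mean dimension: sections on a set of positive density of the
times, over an arbitrary compact space. -/

open Set Filter Topology
open scoped ENNReal

namespace Vale.Agent.P093.SEC

open Vale.Agent.P093.T

/-- If the mean dimension is attained by `𝒰`, all homological orders are large. -/
theorem homOrder_ge {X : Type*} [TopologicalSpace X] [CompactSpace X]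
    [TopologicalSpace.MetrizableSpace X] (h : X ≃ₜ X) {𝒰 𝒰' : Set (Set X)}
    (h𝒰 : IsFinOpenCover 𝒰) (h𝒰' : IsFinOpenCover 𝒰') (hcl : ∀ A ∈ 𝒰', ∃ U ∈ 𝒰, closure A ⊆ U)
    (hfin : meanDim h ≠ ∞) (hatt : coverRate h 𝒰 = meanDim h) {M : ℕ} (hM : 0 < M) :
    (meanDim h).toReal * M ≤ homOrder (iterCover h 𝒰' M) + 2 := by
  by_contra hlt
  rw [not_le] at hlt
  obtain ⟨μ, hμe⟩ : ∃ μ, μ = (meanDim h).toReal := ⟨_, rfl⟩
  have hμ : ENNReal.ofReal μ = meanDim h := by rw [hμe]; exact ENNReal.ofReal_toReal hfin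
  obtain ⟨m, hme⟩ : ∃ m, m = homOrder (iterCover h 𝒰' M) := ⟨_, rfl⟩
  rw [← hμe, ← hme] at hlt
  have hM' : (0 : ℝ) < M := by exact_mod_cast hM
  obtain ⟨c, hce⟩ : ∃ c : ℝ, c = (μ * M - (m + 2)) / (2 * M) := ⟨_, rfl⟩
  have hc : 0 < c := by rw [hce]; exact div_pos (by linarith) (by positivity)
  have hcM : 2 * c * M = μ * M - (m + 2) := by
    rw [hce]
    field_simp
  have hd : HomOrderLE (iterCover h 𝒰' M) (m + 2) := by
    refine att_mono (Nat.le_add_right m 2) ?_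
    rw [hme]
    exact att_homOrderLE (att_iterCover h h𝒰' M)
  have hmM : (m : ℝ) + 2 ≤ (μ - 2 * c) * M := by
    have : (μ - 2 * c) * M = μ * M - 2 * c * M := by ring
    rw [this, hcM]
    linarith
  obtain ⟨𝒱₀, B, h𝒱, hblock⟩ := block_bound h h𝒰 h𝒰' hcl hM hd
  obtain ⟨K₀, hK₀e⟩ : ∃ K₀, K₀ = max B (⌈(μ + 1) * M⌉₊ + 1) := ⟨_, rfl⟩
  have hK₀B : B ≤ K₀ := hK₀e ▸ le_max_left _ _
  have hK₀M : (μ + 1) * M + 1 ≤ K₀ := by
    have h1 : ⌈(μ + 1) * M⌉₊ + 1 ≤ K₀ := hK₀e ▸ le_max_right _ _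
    have h2 : ((⌈(μ + 1) * M⌉₊ : ℝ)) + 1 ≤ K₀ := by exact_mod_cast h1
    have h3 := Nat.le_ceil ((μ + 1) * M)
    linarith
  have hμ0 : 0 < μ := by
    have h1 : 0 < μ * M := lt_of_le_of_lt (by positivity) hlt
    exact pos_of_mul_pos_left h1 hM'.le
  have hK₀pos : (0 : ℝ) < K₀ := by
    have : 0 < (μ + 1) * M := by positivity
    linarith
  obtain ⟨ε, hε, hε1, hεc, hεK⟩ : ∃ ε : ℝ, 0 < ε ∧ ε ≤ 1 ∧ ε ≤ c ∧ 2 * ε * K₀ ≤ c := by
    refine ⟨min 1 (min c (c / (2 * K₀))), by positivity, min_le_left _ _,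
      (min_le_right _ _).trans (min_le_left _ _), ?_⟩
    have h1 : min 1 (min c (c / (2 * K₀))) ≤ c / (2 * K₀) :=
      (min_le_right _ _).trans (min_le_right _ _)
    rw [le_div_iff₀ (by positivity)] at h1
    linarith
  have hεμ : ε ≤ μ := by
    have : c ≤ μ := by
      rw [hce, div_le_iff₀ (by positivity)]
      have : (0 : ℝ) ≤ m := Nat.cast_nonneg m
      nlinarith
    linarith
  have evV : ∀ᶠ N : ℕ in atTop, (coverDim (iterCover h 𝒱₀ N) : ℝ) ≤ (μ + ε) * N := by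
    refine att_ev_of_lt (u := fun N => coverDim (iterCover h 𝒱₀ N)) ?_
    have h1 : coverRate h 𝒱₀ ≤ meanDim h :=
      le_iSup (fun 𝒱 : {𝒱 : Set (Set X) // IsFinOpenCover 𝒱} => coverRate h 𝒱.1) ⟨𝒱₀, h𝒱⟩
    refine lt_of_le_of_lt h1 ?_
    rw [← hμ]
    exact (ENNReal.ofReal_lt_ofReal_iff (by positivity)).2 (by linarith)
  have evJ : ∀ᶠ J : ℕ in atTop, (coverDim (iterCover h 𝒰 (J * M)) : ℝ) ≤
      (μ - ε) * (J * M) + (K₀ + 1) := by
    have h1 : Tendsto (fun J : ℕ => J * M) atTop atTop :=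
      tendsto_id.atTop_mul_const' hM
    filter_upwards [h1.eventually evV, eventually_gt_atTop 0] with J hJ hJ0
    have hJ' : (coverDim (iterCover h 𝒱₀ (J * M)) : ℝ) ≤ (μ + ε) * (J * M) := by
      rw [← Nat.cast_mul]; exact hJ
    obtain ⟨D, hDe⟩ : ∃ D, D = ⌈(μ + ε) * (J * M)⌉₊ := ⟨_, rfl⟩
    have hJR : (0 : ℝ) < J := by exact_mod_cast hJ0
    have hD1 : (D : ℝ) ≤ (μ + ε) * (J * M) + 1 := by
      rw [hDe]; exact (Nat.ceil_lt_add_one (by positivity)).le
    have hD2 : coverDim (iterCover h 𝒱₀ (J * M)) ≤ D := by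
      have : (coverDim (iterCover h 𝒱₀ (J * M)) : ℝ) ≤ D := by
        rw [hDe]; exact hJ'.trans (Nat.le_ceil _)
      exact_mod_cast this
    have hD3 : D < J * K₀ := by
      have h2 : (D : ℝ) < J * K₀ := by
        rw [hDe]
        refine (Nat.ceil_lt_add_one (by positivity)).trans_le ?_
        have hJ1 : (1 : ℝ) ≤ J := by exact_mod_cast hJ0
        have h3 : (J : ℝ) * ((μ + 1) * M + 1) ≤ J * K₀ := mul_le_mul_of_nonneg_left hK₀M hJR.le
        have h4 : ε * (J * M) ≤ 1 * (J * M) := mul_le_mul_of_nonneg_right hε1 (by positivity)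
        nlinarith
      exact_mod_cast h2
    refine att_block (s := ⌈2 * ε * (M * J)⌉₊) hmM hεc hεK hD1 (Nat.le_ceil _)
      (Nat.ceil_lt_add_one (by positivity)).le hεμ ?_
    exact hblock K₀ hK₀B J hJ0 D hD3 hD2 _
  -- all lengths
  have evN : ∀ᶠ N : ℕ in atTop, (coverDim (iterCover h 𝒰 N) : ℝ) ≤
      (μ - ε) * N + ((μ - ε) * M + (K₀ + 1)) := by
    have h1 : Tendsto (fun N : ℕ => N / M + 1) atTop atTop :=
      tendsto_atTop_mono (fun N => Nat.le_succ _) (Nat.tendsto_div_const_atTop hM.ne')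
    filter_upwards [h1.eventually evJ] with N hN
    have h2 : N ≤ (N / M + 1) * M := by
      have := Nat.lt_mul_div_succ N hM
      rw [mul_comm]
      exact this.le
    have h3 : (N / M + 1) * M ≤ N + M := by
      have := Nat.div_mul_le_self N M
      rw [add_mul, one_mul]
      omega
    have h4 : (coverDim (iterCover h 𝒰 N) : ℝ) ≤ coverDim (iterCover h 𝒰 ((N / M + 1) * M)) := by
      exact_mod_cast coverDim_iterCover_mono h h𝒰 h2
    have h5 : (((N / M + 1 : ℕ) : ℝ)) * M ≤ (N : ℝ) + M := by exact_mod_cast h3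
    have h6 : (μ - ε) * (((N / M + 1 : ℕ) : ℝ) * M) ≤ (μ - ε) * ((N : ℝ) + M) :=
      mul_le_mul_of_nonneg_left h5 (by linarith)
    linarith
  have hfinal : coverRate h 𝒰 ≤ ENNReal.ofReal (μ - ε) :=
    att_limsup_le (u := fun N => coverDim (iterCover h 𝒰 N)) (by linarith) evN
  rw [hatt, ← hμ] at hfinal
  have h9 : ENNReal.ofReal (μ - ε) < ENNReal.ofReal μ :=
    (ENNReal.ofReal_lt_ofReal_iff hμ0).2 (by linarith)
  exact absurd hfinal (not_le.2 h9)


section shift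

variable {K : Type*} [TopologicalSpace K]

theorem shiftZ_apply (y : ℤ → K) (n : ℤ) : shiftZ K y n = y (n + 1) := rfl

theorem shiftZ_pow (j : ℕ) (y : ℤ → K) (n : ℤ) : (shiftZ K ^ j) y n = y (n + j) := by
  induction j generalizing y with
  | zero => simp
  | succ j ih =>
    rw [pow_succ]
    show (shiftZ K ^ j) (shiftZ K y) n = _
    rw [ih, shiftZ_apply]
    congr 1
    push_cast
    ring

/-- the coordinate `0` -/
def ev0 (y : ℤ → K) : K := y 0

theorem continuous_ev0 : Continuous (ev0 (K := K)) := continuous_apply 0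

/-- every finite open cover of `K^ℤ` is refined by the cylinders of a finite open cover of `K` -/
theorem exists_cyl [CompactSpace K] [TopologicalSpace.MetrizableSpace K] [Nonempty K]
    {𝒰 : Set (Set (ℤ → K))} (h𝒰 : IsFinOpenCover 𝒰) :
    ∃ (V : Set (Set K)) (w : ℕ), IsFinOpenCover V ∧ ∀ F : ℕ → Set K, (∀ j, F j ∈ V) →
      ∃ W ∈ 𝒰, ∀ y : ℤ → K, (∀ j < 2 * w + 1, y (j - w) ∈ F j) → y ∈ W := by
  classical
  let _ := TopologicalSpace.metrizableSpaceMetric K
  obtain ⟨n, hn, hcov⟩ := lebesgue_number_lemma_sUnion (S := 𝒰)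
    (isCompact_univ (X := ℤ → K)) (fun t ht => h𝒰.2.1 t ht) (by rw [h𝒰.2.2])
  rw [Pi.uniformity, Filter.mem_iInf] at hn
  obtain ⟨I, hI, Vn, hVn, rfl⟩ := hn
  have hIf : Finite I := hI.to_subtype
  have h1 : ∀ i : I, ∃ ε : ℝ, 0 < ε ∧ ∀ x y : ℤ → K, dist (x i) (y i) < ε → (x, y) ∈ Vn i := by
    intro i
    obtain ⟨t, ht, hts⟩ := Filter.mem_comap.1 (hVn i)
    obtain ⟨ε, hε, hεt⟩ := Metric.mem_uniformity_dist.1 ht
    exact ⟨ε, hε, fun x y hxy => hts (hεt hxy)⟩
  choose ε hε hεV using h1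
  obtain ⟨δ, hδ1, hδ0⟩ : ∃ δ : ℝ, (∀ i, δ < ε i) ∧ 0 < δ := by
    have h2 : ∀ᶠ δ : ℝ in 𝓝[>] 0, ∀ i, δ < ε i := by
      rw [Filter.eventually_all]
      intro i
      exact nhdsWithin_le_nhds (eventually_lt_nhds (hε i))
    obtain ⟨δ, h3, h4⟩ := (h2.and self_mem_nhdsWithin).exists
    exact ⟨δ, h3, h4⟩
  obtain ⟨w, hw⟩ : ∃ w : ℕ, ∀ i : I, (i : ℤ).natAbs ≤ w := by
    have h2 : ∀ᶠ w : ℕ in atTop, ∀ i : I, (i : ℤ).natAbs ≤ w := by
      rw [Filter.eventually_all]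
      intro i
      exact eventually_ge_atTop _
    exact h2.exists
  obtain ⟨t, -, htf, htc⟩ := (isCompact_univ (X := K)).finite_cover_balls (half_pos hδ0)
  refine ⟨(fun x => Metric.ball x (δ / 2)) '' t, w, ⟨htf.image _, ?_, ?_⟩, fun F hF => ?_⟩
  · rintro _ ⟨x, -, rfl⟩
    exact Metric.isOpen_ball
  · rw [eq_univ_iff_forall]
    intro y
    have h2 := htc (mem_univ y)
    simp only [mem_iUnion, exists_prop] at h2
    obtain ⟨x, hx, hy⟩ := h2
    exact ⟨_, ⟨x, hx, rfl⟩, hy⟩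
  · by_cases hne : ∃ y : ℤ → K, ∀ j < 2 * w + 1, y (j - w) ∈ F j
    · obtain ⟨y₀, hy₀⟩ := hne
      obtain ⟨W, hW, hWs⟩ := hcov y₀ (mem_univ _)
      refine ⟨W, hW, fun y hy => hWs ?_⟩
      show (y₀, y) ∈ ⋂ i, Vn i
      rw [mem_iInter]
      intro i
      refine hεV i _ _ (lt_trans ?_ (hδ1 i))
      have h2 := hw i
      have h3 := hy₀ ((i : ℤ) + w).toNat (by omega)
      have h4 := hy ((i : ℤ) + w).toNat (by omega)
      have h5 : ((((i : ℤ) + w).toNat : ℕ) : ℤ) - w = i := by omega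
      rw [h5] at h3 h4
      obtain ⟨x, -, hx⟩ := hF ((i : ℤ) + w).toNat
      rw [← hx] at h3 h4
      calc dist (y₀ i) (y i) ≤ dist (y₀ i) x + dist (y i) x := dist_triangle_right _ _ _
        _ < δ / 2 + δ / 2 := add_lt_add h3 h4
        _ = δ := add_halves δ
    · have h2 : (fun _ => Classical.arbitrary K : ℤ → K) ∈ ⋃₀ 𝒰 := by rw [h𝒰.2.2]; trivial
      obtain ⟨W, hW, -⟩ := h2
      exact ⟨W, hW, fun y hy => absurd ⟨y, hy⟩ hne⟩

theorem coverDim_cyl {𝒰 : Set (Set (ℤ → K))} {V : Set (Set K)} (hV : IsFinOpenCover V)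
    {w : ℕ} (hw : ∀ F : ℕ → Set K, (∀ j, F j ∈ V) →
      ∃ W ∈ 𝒰, ∀ y : ℤ → K, (∀ j < 2 * w + 1, y (j - w) ∈ F j) → y ∈ W) (N : ℕ) :
    coverDim (iterCover (shiftZ K) 𝒰 N) ≤
      coverDim (iterCover (shiftZ K) (preCover ev0 V) (N + 2 * w)) := by
  have hs : Continuous fun (y : ℤ → K) (n : ℤ) => y (n - w) :=
    continuous_pi fun n => continuous_apply _
  refine coverDim_pullback hs ?_
    (T.att_iterCover (shiftZ K) (preCover_fin continuous_ev0 hV) (N + 2 * w))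
  rintro _ ⟨F, hF, rfl⟩
  choose G hG hGF using hF
  choose W hW hWs using fun i : ℕ => hw (fun j => G (i + j)) fun j => hG _
  refine ⟨_, ⟨W, hW, rfl⟩, ?_⟩
  intro y hy
  simp only [mem_preimage, mem_iInter, Finset.mem_range] at hy ⊢
  intro i hi
  refine hWs i _ fun j hj => ?_
  have h1 := hy (i + j) (by omega)
  rw [← hGF (i + j)] at h1
  change ((shiftZ K ^ (i + j)) fun n => y (n - w)) 0 ∈ G (i + j) at h1
  rw [shiftZ_pow] at h1 ⊢
  have h2 : (0 : ℤ) + ((i + j : ℕ) : ℤ) - w = (j : ℤ) - w + i := by push_cast; ring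
  rwa [h2] at h1

theorem coverRate_cyl [CompactSpace K] [TopologicalSpace.MetrizableSpace K]
    {𝒰 : Set (Set (ℤ → K))} {V : Set (Set K)} (hV : IsFinOpenCover V)
    {w : ℕ} (hw : ∀ F : ℕ → Set K, (∀ j, F j ∈ V) →
      ∃ W ∈ 𝒰, ∀ y : ℤ → K, (∀ j < 2 * w + 1, y (j - w) ∈ F j) → y ∈ W) :
    coverRate (shiftZ K) 𝒰 ≤ coverRate (shiftZ K) (preCover ev0 V) := by
  have hfin : coverRate (shiftZ K) (preCover ev0 V) ≠ ∞ :=
    Hom.coverRate_ne_top _ (preCover_fin continuous_ev0 hV)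
  obtain ⟨ρ, hρ⟩ : ∃ ρ, ρ = (coverRate (shiftZ K) (preCover ev0 V)).toReal := ⟨_, rfl⟩
  have hρe : coverRate (shiftZ K) (preCover ev0 V) = ENNReal.ofReal ρ := by
    rw [hρ, ENNReal.ofReal_toReal hfin]
  have hρ0 : 0 ≤ ρ := by rw [hρ]; exact ENNReal.toReal_nonneg
  refine ENNReal.le_of_forall_pos_le_add fun ε hε _ => ?_
  have hε' : (0 : ℝ) < ε := NNReal.coe_pos.2 hε
  have h0 : coverRate (shiftZ K) (preCover ev0 V) + (ε : ℝ≥0∞) = ENNReal.ofReal (ρ + ε) := by
    rw [hρe, ENNReal.ofReal_add hρ0 (NNReal.coe_nonneg ε), ENNReal.ofReal_coe_nnreal]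
  rw [h0]
  have h1 : ∀ᶠ N : ℕ in atTop,
      (coverDim (iterCover (shiftZ K) (preCover ev0 V) N) : ℝ) ≤ (ρ + ε) * N := by
    refine att_ev_of_lt (u := fun N => coverDim (iterCover (shiftZ K) (preCover ev0 V) N)) ?_
    change coverRate (shiftZ K) (preCover ev0 V) < _
    rw [hρe]
    exact (ENNReal.ofReal_lt_ofReal_iff (by positivity)).2 (by linarith)
  have h2 : Tendsto (fun N : ℕ => N + 2 * w) atTop atTop := tendsto_add_atTop_nat _
  refine att_limsup_le (u := fun N => coverDim (iterCover (shiftZ K) 𝒰 N))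
    (C := (ρ + ε) * (2 * w)) (by positivity) ?_
  filter_upwards [h2.eventually h1] with N hN
  have h3 : (coverDim (iterCover (shiftZ K) 𝒰 N) : ℝ) ≤
      coverDim (iterCover (shiftZ K) (preCover ev0 V) (N + 2 * w)) := by
    exact_mod_cast coverDim_cyl hV hw N
  have h4 : (ρ + ε) * ((N + 2 * w : ℕ) : ℝ) = (ρ + ε) * N + (ρ + ε) * (2 * w) := by
    push_cast
    ring
  rw [h4] at hN
  exact h3.trans hN

theorem shrink_cyl {V V' : Set (Set K)} (h : ∀ A ∈ V', ∃ U ∈ V, closure A ⊆ U) :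
    ∀ A ∈ preCover (ev0 (K := K)) V', ∃ U ∈ preCover (ev0 (K := K)) V, closure A ⊆ U := by
  rintro _ ⟨A, hA, rfl⟩
  obtain ⟨U, hU, hAU⟩ := h A hA
  refine ⟨_, ⟨U, hU, rfl⟩, ?_⟩
  refine (closure_minimal (preimage_mono subset_closure)
    (isClosed_closure.preimage continuous_ev0)).trans (preimage_mono hAU)

variable {X : Type*} [TopologicalSpace X]

/-- sections on the times in `J` -/
theorem iter_section [Nonempty K] (h : X ≃ₜ X) {f : X → K} {N : ℕ} {J : Finset ℕ}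
    {s : (ℕ → K) → X} (hs : Continuous s)
    (hJ : ∀ j ∈ J, j < N ∧ ∀ y, f ((h ^ j) (s y)) = y j) :
    ∃ s' : (ℤ → K) → X, Continuous s' ∧ ∀ V : Set (Set K), V.Nonempty →
      ∀ A ∈ iterCover h (preCover f V) N,
        ∃ W ∈ iterCover (shiftZ K) (preCover ev0 V) J.card, s' ⁻¹' A ⊆ W := by
  classical
  let e : (ℤ → K) → ℕ → K := fun y j => if hj : j ∈ J then y ((J.equivFin ⟨j, hj⟩ : ℕ) : ℤ) else y 0
  have he : Continuous e := by
    refine continuous_pi fun j => ?_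
    by_cases hj : j ∈ J
    · simp only [e, hj, dite_true]
      exact continuous_apply _
    · simp only [e, hj, dite_false]
      exact continuous_apply _
  refine ⟨fun y => s (e y), hs.comp he, fun V hVne => ?_⟩
  rintro _ ⟨F, hF, rfl⟩
  choose G hG hGF using hF
  obtain ⟨V₀, hV₀⟩ := hVne
  let G' : ℕ → Set K := fun i => if hi : i < J.card then G (J.equivFin.symm ⟨i, hi⟩ : ℕ) else V₀
  have hG' : ∀ i, G' i ∈ V := by
    intro i
    simp only [G']
    split_ifs with hi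
    · exact hG _
    · exact hV₀
  refine ⟨_, ⟨fun i => ev0 ⁻¹' (G' i), fun i => ⟨G' i, hG' i, rfl⟩, rfl⟩, ?_⟩
  intro y hy
  simp only [mem_preimage, mem_iInter, Finset.mem_range] at hy ⊢
  intro i hi
  have h1 : ((J.equivFin.symm ⟨i, hi⟩ : J) : ℕ) ∈ J := (J.equivFin.symm ⟨i, hi⟩).2
  have h2 := hy _ (hJ _ h1).1
  rw [← hGF, mem_preimage, (hJ _ h1).2] at h2
  have h3 : G' i = G (J.equivFin.symm ⟨i, hi⟩ : ℕ) := by simp only [G', hi, dite_true]
  have h4 : e y (J.equivFin.symm ⟨i, hi⟩ : ℕ) = y i := by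
    simp only [e, h1, dite_true, Subtype.coe_eta, Equiv.apply_symm_apply]
  change ((shiftZ K ^ i) y) 0 ∈ G' i
  rw [shiftZ_pow, zero_add, h3, ← h4]
  exact h2

omit [TopologicalSpace K] [TopologicalSpace X] in
theorem lim_aux1 {x : ℕ → ℝ≥0∞} {N : ℕ → ℕ} (hN : Tendsto N atTop atTop) {L : ℝ≥0∞}
    (hL : limsup x atTop ≤ L) : limsup (fun k => x (N k)) atTop ≤ L := by
  have h1 : limsup (fun k => x (N k)) atTop = limsup x (map N atTop) := rfl
  rw [h1]
  exact (limsup_le_limsup_of_le hN).trans hL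

omit [TopologicalSpace K] [TopologicalSpace X] in
theorem lim_aux2 {c x y : ℕ → ℝ≥0∞} {L : ℝ≥0∞} (hx : limsup x atTop ≤ L)
    (hc : ∀ k, c k ≤ x k + y k) (hy : Tendsto y atTop (𝓝 0)) : limsup c atTop ≤ L := by
  refine ENNReal.le_of_forall_pos_le_add fun ε hε _ => ?_
  have h7 : ∀ᶠ k in atTop, c k ≤ x k + ε := by
    filter_upwards [hy.eventually_le_const (ENNReal.coe_pos.2 hε)] with k hk
    exact (hc k).trans (add_le_add_right hk _)
  refine (limsup_le_limsup h7).trans ?_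
  rw [limsup_add_const _ _ _ (by isBoundedDefault) (by isBoundedDefault)]
  exact add_le_add_left hx _

/-- **Free blocks over an arbitrary compact space.** If the mean dimension of the full shift
`K^ℤ` is finite and attained by a finite open cover, and the coordinates `f (h^j x) ∈ K`, `j ∈ J k`,
can be prescribed continuously, where `J k ⊆ [0, N k)`, then `mdim_ℤ h` is at least
`mdim (K^ℤ)` times the upper density of the `J k`. -/
theorem density_bound [CompactSpace K] [TopologicalSpace.MetrizableSpace K] [Nonempty K]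
    [CompactSpace X] [TopologicalSpace.MetrizableSpace X] (h : X ≃ₜ X)
    (hfin : meanDim (shiftZ K) ≠ ∞)
    (hatt : ∃ U, IsFinOpenCover U ∧ coverRate (shiftZ K) U = meanDim (shiftZ K))
    (f : X → K) (hf : Continuous f) (N : ℕ → ℕ) (J : ℕ → Finset ℕ) (s : ℕ → (ℕ → K) → X)
    (hN : Tendsto N atTop atTop) (hs : ∀ k, Continuous (s k))
    (hJ : ∀ k, ∀ j ∈ J k, j < N k ∧ ∀ y, f ((h ^ j) (s k y)) = y j) :
    meanDim (shiftZ K) * limsup (fun k => ((J k).card : ℝ≥0∞) / N k) atTop ≤ homMeanDim h := by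
  obtain ⟨𝒰, h𝒰, he⟩ := hatt
  obtain ⟨V, w, hV, hw⟩ := exists_cyl h𝒰
  have hV0 : IsFinOpenCover (preCover (ev0 (K := K)) V) := preCover_fin continuous_ev0 hV
  have hVe : coverRate (shiftZ K) (preCover ev0 V) = meanDim (shiftZ K) :=
    le_antisymm (Hom.coverRate_le_meanDim _ hV0) (he ▸ coverRate_cyl hV hw)
  obtain ⟨V', hV', hcl⟩ := exists_shrink hV
  have hVne : V'.Nonempty := by
    have h2 : Classical.arbitrary K ∈ ⋃₀ V' := by rw [hV'.2.2]; trivial
    obtain ⟨A, hA, -⟩ := h2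
    exact ⟨A, hA⟩
  have hV0' : IsFinOpenCover (preCover (ev0 (K := K)) V') := preCover_fin continuous_ev0 hV'
  have hfV : IsFinOpenCover (preCover f V') := preCover_fin hf hV'
  obtain ⟨μ, hμ⟩ : ∃ μ, μ = (meanDim (shiftZ K)).toReal := ⟨_, rfl⟩
  have hμe : meanDim (shiftZ K) = ENNReal.ofReal μ := by rw [hμ, ENNReal.ofReal_toReal hfin]
  have hμ0 : 0 ≤ μ := by rw [hμ]; exact ENNReal.toReal_nonneg
  have key : ∀ k, meanDim (shiftZ K) * (((J k).card : ℝ≥0∞) / N k) ≤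
      (homOrder (iterCover h (preCover f V') (N k)) : ℝ≥0∞) / N k + 2 / N k := by
    intro k
    have h1 : μ * (J k).card ≤ homOrder (iterCover h (preCover f V') (N k)) + 2 := by
      rcases Nat.eq_zero_or_pos (J k).card with h0 | h0
      · rw [h0, Nat.cast_zero, mul_zero]
        positivity
      · have h2 := homOrder_ge (shiftZ K) hV0 hV0' (shrink_cyl hcl) hfin hVe h0
        rw [← hμ] at h2
        refine h2.trans ?_
        obtain ⟨s', hs', hW⟩ := iter_section h (hs k) (hJ k)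
        have h3 : homOrder (iterCover (shiftZ K) (preCover ev0 V') (J k).card) ≤
            homOrder (iterCover h (preCover f V') (N k)) :=
          Nat.sInf_le (homOrderLE_pullback hs' (hW V' hVne)
            (T.att_homOrderLE (T.att_iterCover h hfV (N k))))
        have h4 : (homOrder (iterCover (shiftZ K) (preCover ev0 V') (J k).card) : ℝ) ≤
            homOrder (iterCover h (preCover f V') (N k)) := by exact_mod_cast h3
        linarith
    rw [← mul_div_assoc, ← ENNReal.add_div, hμe]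
    refine ENNReal.div_le_div_right ?_ _
    rw [← ENNReal.ofReal_natCast (J k).card, ← ENNReal.ofReal_mul hμ0,
      ← ENNReal.ofReal_natCast (homOrder _), ← ENNReal.ofReal_ofNat 2,
      ← ENNReal.ofReal_add (Nat.cast_nonneg _) (by norm_num)]
    exact ENNReal.ofReal_le_ofReal h1
  have htwo : Tendsto (fun k => (2 : ℝ≥0∞) / N k) atTop (𝓝 0) := by
    have h1 : Tendsto (fun n : ℕ => (2 : ℝ≥0∞) / n) atTop (𝓝 0) := by
      have := ENNReal.Tendsto.const_mul ENNReal.tendsto_inv_nat_nhds_zero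
        (a := 2) (Or.inr (by norm_num))
      simpa [div_eq_mul_inv] using this
    exact h1.comp hN
  rw [← ENNReal.limsup_const_mul_of_ne_top hfin]
  refine lim_aux2 (x := fun k => (homOrder (iterCover h (preCover f V') (N k)) : ℝ≥0∞) / N k)
    (lim_aux1 (x := fun n => (homOrder (iterCover h (preCover f V') n) : ℝ≥0∞) / n) hN ?_)
    key htwo
  exact le_iSup (fun 𝒱 : {𝒱 : Set (Set X) // IsFinOpenCover 𝒱} =>
    limsup (fun N : ℕ => (homOrder (iterCover h 𝒱.1 N) : ℝ≥0∞) / N) atTop) ⟨_, hfV⟩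

end shift

end Vale.Agent.P093.SEC
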