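import Vale.Agent.P093.HB.H6
import Vale.Agent.P093.H598.MarkerDef

set_option linter.all false

/-! The lower bounds for the radius of comparison, under the marker property only. -/

section
open Filter Topology Set
open scoped ENNReal
namespace Vale.Agent.P093.MK

variable {X : Type*} [TopologicalSpace X] [CompactSpace X] [T2Space X]

/-- no periodic points -/
theorem not_periodic (h : X ≃ₜ X) (hmin : MarkerProperty h) (x : X) {n : ℤ}
    (hn : 0 < n) : (h ^ n) x ≠ x := by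
  intro hx
  obtain ⟨V, -, hV, hcov⟩ := hmin (n.toNat + 1)
  obtain ⟨i, hi⟩ := hcov x
  refine hV n hn (by omega) _ hi ?_
  rw [← zpow_add_apply', add_comm, zpow_add_apply', hx]
  exact hi

/-- separated cutoff function with bounded backward return times -/
theorem exists_cutoff (h : X ≃ₜ X) (hmin : MarkerProperty h) (L : ℕ) :
    ∃ (w : C(X, ℝ)) (T : ℕ), (∀ x, 0 ≤ w x) ∧ (∀ x, w x ≤ 1) ∧
      (∀ x (i j : ℤ), i < j → w ((h ^ i) x) ≠ 0 → w ((h ^ j) x) ≠ 0 → (L : ℤ) ≤ j - i) ∧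
      ∀ x, ∃ i : ℕ, i < T ∧ w ((h ^ (-(i : ℤ))) x) = 1 := by
  classical
  obtain ⟨V, hVo, hV, hcovV⟩ := hmin L
  have h0 : ∀ x : X, ∃ (i : ℤ) (K : Set X), IsClosed K ∧ K ⊆ V ∧ (h ^ i) x ∈ interior K := by
    intro x
    obtain ⟨i, hi⟩ := hcovV x
    obtain ⟨K, hK, hKcl, hKV⟩ := exists_mem_nhds_isClosed_subset (hVo.mem_nhds hi)
    exact ⟨i, K, hKcl, hKV, mem_interior_iff_mem_nhds.2 hK⟩
  choose I K hKcl hKV hIK using h0
  have h1 : (Set.univ : Set X) ⊆ ⋃ y : X, (h ^ (I y)) ⁻¹' interior (K y) := fun x _ =>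
    Set.mem_iUnion.2 ⟨x, hIK x⟩
  obtain ⟨t, ht⟩ := isCompact_univ.elim_finite_subcover _
    (fun y => isOpen_interior.preimage (h ^ (I y)).continuous) h1
  obtain ⟨W, hWdef⟩ : ∃ W : Set X, W = ⋃ y ∈ t, K y := ⟨_, rfl⟩
  have hWcl : IsClosed W := by
    rw [hWdef]
    exact isClosed_biUnion_finset fun y _ => hKcl y
  have hWV : W ⊆ V := by
    rw [hWdef]
    exact Set.iUnion₂_subset fun y _ => hKV y
  obtain ⟨w, hw0, hw1, hw⟩ := exists_continuous_zero_one_of_isClosed (isClosed_compl_iff.2 hVo)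
    hWcl (Set.disjoint_left.2 fun x hx hx' => hx (hWV hx'))
  -- bounded return
  have hcov : ∃ T : ℕ, ∀ x, ∃ i : ℤ, |i| ≤ T ∧ (h ^ i) x ∈ W := by
    refine ⟨∑ y ∈ t, (I y).natAbs, fun x => ?_⟩
    have := ht (Set.mem_univ x)
    simp only [Set.mem_iUnion] at this
    obtain ⟨y, hy, hx⟩ := this
    refine ⟨I y, ?_, ?_⟩
    · have := Finset.single_le_sum (f := fun y => (I y).natAbs) (fun _ _ => Nat.zero_le _) hy
      have h5 : ((I y).natAbs : ℤ) = |I y| := Int.natCast_natAbs (I y)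
      rw [← h5]
      exact_mod_cast this
    · rw [hWdef]
      exact Set.mem_biUnion hy (interior_subset hx)
  obtain ⟨T, hT⟩ := hcov
  refine ⟨w, 2 * T + 1, fun x => (hw x).1, fun x => (hw x).2, ?_, ?_⟩
  · intro x i j hij hi hj
    by_contra hlt
    have h1 : ∀ y, w y ≠ 0 → y ∈ V := by
      intro y hy
      by_contra hyV
      exact hy (hw0 hyV)
    refine hV (j - i) (by omega) (by omega) _ (h1 _ hi) ?_
    rw [← zpow_add_apply', sub_add_cancel]
    exact h1 _ hj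
  · intro x
    obtain ⟨i, hi, hiW⟩ := hT ((h ^ (-(T : ℤ))) x)
    rw [abs_le] at hi
    refine ⟨((T : ℤ) - i).toNat, by omega, ?_⟩
    have h2 : (-((((T : ℤ) - i).toNat : ℕ) : ℤ)) = i + -(T : ℤ) := by omega
    rw [h2, zpow_add_apply']
    exact hw1 hiW

/-- Lindenstrauss function: a continuous function which increases by one along orbits except
near rare visits to a small set. -/
theorem exists_lind (h : X ≃ₜ X) (hmin : MarkerProperty h)  (L : ℕ) :
    ∃ (w nn : C(X, ℝ)),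
      (∀ x (i j : ℤ), i < j → w ((h ^ i) x) ≠ 0 → w ((h ^ j) x) ≠ 0 → (L : ℤ) ≤ j - i) ∧
      ∀ x, |w (h x)| ≤ 1 / 2 → nn (h x) = nn x + 1 := by
  obtain ⟨w, T, hw0, hw1, hsep, hret⟩ := exists_cutoff h hmin L
  -- sharper cutoff
  let w' : C(X, ℝ) := ⟨fun x => max 0 (2 * w x - 1), by (clear * -; fun_prop)⟩
  have hw' : ∀ x, w' x = max 0 (2 * w x - 1) := fun x => rfl
  have hpart : ∀ k : ℕ, Continuous fun x => ∏ i ∈ Finset.range k, (1 - w' ((h ^ (-(i : ℤ))) x)) := by
    intro k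
    refine continuous_finsetProd _ fun i _ => ?_
    have := (h ^ (-(i : ℤ))).continuous
    (clear * - this; fun_prop)
  let nn : C(X, ℝ) := ⟨fun x => ∑ k ∈ Finset.range (T + 1),
    ∏ i ∈ Finset.range (k + 1), (1 - w' ((h ^ (-(i : ℤ))) x)),
    continuous_finsetSum _ fun k _ => hpart (k + 1)⟩
  refine ⟨w, nn, hsep, fun x hx => ?_⟩
  have hx0 : w' (h x) = 0 := by
    rw [hw', max_eq_left]
    have := (abs_le.1 hx).2
    linarith only [this]
  change ∑ k ∈ Finset.range (T + 1),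
    ∏ i ∈ Finset.range (k + 1), (1 - w' ((h ^ (-(i : ℤ))) (h x))) = ∑ k ∈ Finset.range (T + 1),
    ∏ i ∈ Finset.range (k + 1), (1 - w' ((h ^ (-(i : ℤ))) x)) + 1
  have h1 : ∀ k : ℕ, ∏ i ∈ Finset.range (k + 1), (1 - w' ((h ^ (-(i : ℤ))) (h x))) =
      ∏ i ∈ Finset.range k, (1 - w' ((h ^ (-(i : ℤ))) x)) := by
    intro k
    rw [Finset.prod_range_succ']
    have h2 : (1 - w' ((h ^ (-((0 : ℕ) : ℤ))) (h x))) = 1 := by
      have : (h ^ (-((0 : ℕ) : ℤ))) (h x) = h x := by simp only [CharP.cast_eq_zero, neg_zero, zpow_ofNat, pow_zero, Homeomorph.one_apply]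
      rw [this, hx0, sub_zero]
    rw [h2, mul_one]
    refine Finset.prod_congr rfl fun i _ => ?_
    have h3 : (h ^ (-((i + 1 : ℕ) : ℤ))) (h x) = (h ^ (-(i : ℤ))) x := by
      have h4 : h x = (h ^ (1 : ℤ)) x := by rw [zpow_one]
      rw [h4, ← zpow_add_apply']
      congr 2
      push_cast
      ring
    rw [h3]
  simp_rw [h1]
  rw [Finset.sum_range_succ']
  rw [Finset.prod_range_zero]
  congr 1
  rw [Finset.sum_range_succ]
  -- the last term vanishes
  obtain ⟨i, hiT, hi⟩ := hret x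
  have h5 : ∏ i ∈ Finset.range (T + 1), (1 - w' ((h ^ (-(i : ℤ))) x)) = 0 := by
    refine Finset.prod_eq_zero (Finset.mem_range.2 (by omega : i < T + 1)) ?_
    rw [hw', hi]
    norm_num
  rw [h5, add_zero]

end Vale.Agent.P093.MK
end

section
open Filter Topology Set
namespace Vale.Agent.P093.MK
open Vale.Agent.P093.Hom

open scoped Classical in
theorem exists_towerA {X : Type*} [MetricSpace X] [CompactSpace X] [Nonempty X] (h : X ≃ₜ X)
    (hmin : MarkerProperty h) (L : ℕ) (hL : 0 < L) {ε : ℝ} (hε : 0 < ε) :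
    ∃ ω : C(X, ℝ), (∀ x, 0 ≤ ω x) ∧ (∀ x, ω x ≤ 1) ∧
      (∀ x (i j : ℤ), i < j → ω ((h ^ i) x) ≠ 0 → ω ((h ^ j) x) ≠ 0 → (L : ℤ) ≤ j - i) ∧
      ∃ C : ℝ, ∀ x (N : ℕ), (1 - ε) * N / L - C ≤
        ((Finset.range N).filter fun i : ℕ => ω ((h ^ (i : ℤ)) x) = 1).card := by
  have hL' : (0 : ℝ) < L := by exact_mod_cast hL
  obtain ⟨q, hq⟩ := exists_nat_ge (6 / ε + 2)
  have hq2 : 2 ≤ q := by
    have : (2 : ℝ) ≤ q := by
      have := div_pos (show (0 : ℝ) < 6 by norm_num) hε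
      linarith
    exact_mod_cast this
  obtain ⟨c, rfl⟩ : ∃ c, q = c + 2 := ⟨q - 2, by omega⟩
  obtain ⟨n, hn⟩ : ∃ n, n = (c + 2) * L + 1 := ⟨_, rfl⟩
  have hn0 : 0 < n := by omega
  obtain ⟨H, hH⟩ := exists_nat_ge (2 * L * (c + 1) * (L + 1) / ε + 1)
  have hH0 : 0 < H := by
    have : (0 : ℝ) < H := lt_of_lt_of_le (by positivity) hH
    exact_mod_cast this
  obtain ⟨w, nn, hsep, hnn⟩ := exists_lind h hmin H
  obtain ⟨ω, hω⟩ := tw_def h L (c + 2) w nn
  refine ⟨ω, fun x => (tw_nonneg hω x).1, fun x => (tw_nonneg hω x).2, tw_sep hnn hω,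
    c + (c + 1) * (L + 1) * (L + 1), fun x N => ?_⟩
  -- resets
  let R : ℕ → Prop := fun j => w ((h ^ (j : ℤ)) x) ≠ 0
  let A : ℕ → Prop := fun j => ∃ k ≤ L, R (j + k)
  let s : ℕ → ℝ := fun j => ((c + 2 : ℕ) : ℝ) * nn ((h ^ (j : ℤ)) x)
  let P : ℕ → Prop := fun j => ω ((h ^ (j : ℤ)) x) = 1
  let P' : ℕ → Prop := fun j => P j ∨ A j
  have hstep : ∀ j, ¬ A (j + 1) → s (j + 1) = s j + ((c + 2 : ℕ) : ℝ) := by
    intro j hj
    have h1 : w ((h ^ ((j + 1 : ℕ) : ℤ)) x) = 0 := by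
      by_contra h1
      exact hj ⟨0, Nat.zero_le _, h1⟩
    have h2 : (((j + 1 : ℕ) : ℤ)) = (j : ℤ) + 1 := by push_cast; ring
    rw [h2, tw_zpow_succ] at h1
    have h3 := hnn _ (show |w (h ((h ^ (j : ℤ)) x))| ≤ 1 / 2 by rw [h1, abs_zero]; norm_num)
    show ((c + 2 : ℕ) : ℝ) * nn ((h ^ ((j + 1 : ℕ) : ℤ)) x) = _
    rw [h2, tw_zpow_succ, h3]
    ring
  have hP : ∀ j, (∃ k : ℤ, (1 : ℝ) ≤ s j - n * k ∧ s j - n * k ≤ 1 + c) → P' j := by
    rintro j ⟨k, h1, h2⟩
    by_cases hA : A j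
    · exact Or.inr hA
    · left
      show ω ((h ^ (j : ℤ)) x) = 1
      rw [hω]
      have h3 : arc ((c + 2) * L + 1) 1 (((c + 2 : ℕ) : ℝ) - 2) 1
          (((c + 2 : ℕ) : ℝ) * nn ((h ^ (j : ℤ)) x)) = 1 := by
        rw [← hn]
        refine arc_eq_one one_pos k h1 ?_
        refine h2.trans (le_of_eq ?_)
        push_cast
        ring
      rw [h3, one_mul]
      refine Finset.prod_eq_one fun k hk => ?_
      rw [Finset.mem_Icc] at hk
      have h4 : w ((h ^ (k : ℤ)) ((h ^ (j : ℤ)) x)) = 0 := by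
        by_contra h4
        refine hA ⟨k, hk.2, ?_⟩
        show w ((h ^ ((j + k : ℕ) : ℤ)) x) ≠ 0
        rw [← zpow_add_apply'] at h4
        have h5 : (((j + k : ℕ) : ℤ)) = (k : ℤ) + j := by push_cast; ring
        rw [h5]
        exact h4
      rw [h4, abs_zero]
      norm_num
  have hcn : c ≤ n := by
    have := Nat.mul_le_mul_left (c + 2) hL
    omega
  have h1 := tw_block hn hstep hcn 1 P' hP 0 (N / n)
  have hNn : n * (N / n) ≤ N := Nat.mul_div_le N n
  have h2 : ((Finset.Ico 0 (0 + n * (N / n))).filter P').card ≤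
      ((Finset.range N).filter P).card + ((Finset.Ico 0 N).filter A).card := by
    refine le_trans (Finset.card_le_card ?_) (Finset.card_union_le _ _)
    intro j hj
    rw [Finset.mem_filter, Finset.mem_Ico] at hj
    rw [Finset.mem_union, Finset.mem_filter, Finset.mem_filter, Finset.mem_range, Finset.mem_Ico]
    rcases hj.2 with h3 | h3
    · exact Or.inl ⟨by omega, h3⟩
    · exact Or.inr ⟨⟨Nat.zero_le _, by omega⟩, h3⟩
  have h3 : ((Finset.Ico 0 (0 + n * (N / n))).filter A).card ≤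
      ((Finset.Ico 0 N).filter A).card := by
    refine Finset.card_le_card (Finset.filter_subset_filter _ ?_)
    exact Finset.Ico_subset_Ico le_rfl (by omega)
  have h4 : H * ((Finset.Ico 0 N).filter A).card ≤ (L + 1) * (N + L + H) := by
    refine tw_sparse hH0 L N R ?_ (fun j hj => hj)
    intro i j hij hi hj
    have := hsep x i j (by exact_mod_cast hij) hi hj
    omega
  show (1 - ε) * N / L - (c + (c + 1) * (L + 1) * (L + 1)) ≤ (((Finset.range N).filter P).card : ℝ)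
  generalize ((Finset.range N).filter P).card = p at *
  generalize ((Finset.Ico 0 N).filter A).card = a at *
  generalize ((Finset.Ico 0 (0 + n * (N / n))).filter P').card = p' at *
  generalize ((Finset.Ico 0 (0 + n * (N / n))).filter A).card = a' at *
  have h5 : c * (N / n) ≤ p + (c + 1) * a := by
    have := Nat.mul_le_mul_left c h3
    linarith
  have h6 : N < n * (N / n) + n := by
    have := Nat.lt_mul_div_succ N hn0
    rwa [Nat.mul_add, Nat.mul_one] at this
  generalize N / n = e at *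
  have g1 : (c : ℝ) * ε ≥ 6 := by
    have : 6 / ε ≤ c := by push_cast at hq; linarith
    rwa [div_le_iff₀ hε] at this
  have g2 : 2 * L * ((c : ℝ) + 1) * (L + 1) ≤ H * ε := by
    have : 2 * L * ((c : ℝ) + 1) * (L + 1) / ε ≤ H := by linarith
    rwa [div_le_iff₀ hε] at this
  have hL1 : (1 : ℝ) ≤ L := by exact_mod_cast hL
  have hH1 : (1 : ℝ) ≤ H := by exact_mod_cast hH0
  have h5' : (c : ℝ) * e ≤ p + (c + 1) * a := by exact_mod_cast h5
  have h6' : (N : ℝ) ≤ n * (e + 1) := by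
    have : (N : ℝ) < n * e + n := by exact_mod_cast h6
    linarith
  have h4' : (H : ℝ) * a ≤ (L + 1) * (N + L + H) := by exact_mod_cast h4
  have hn' : (n : ℝ) = (c + 2) * L + 1 := by rw [hn]; push_cast; ring
  have hc0 : (0 : ℝ) ≤ c := Nat.cast_nonneg c
  have he0 : (0 : ℝ) ≤ e := Nat.cast_nonneg e
  have hN0 : (0 : ℝ) ≤ N := Nat.cast_nonneg N
  have k1 : (1 - ε / 2) * N ≤ c * (e + 1) * L := by
    rcases le_or_gt (1 - ε / 2) 0 with h0 | h0
    · exact (mul_nonpos_of_nonpos_of_nonneg h0 hN0).trans (by positivity)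
    · have e1 : (1 - ε / 2) * n ≤ c * L := by
        rw [hn']
        have f1 := mul_le_mul_of_nonneg_right g1.le hL'.le
        have f2 : 0 ≤ ε * (2 * (L : ℝ) + 1) := by positivity
        linarith
      calc (1 - ε / 2) * N ≤ (1 - ε / 2) * (n * (e + 1)) := mul_le_mul_of_nonneg_left h6' h0.le
        _ = ((1 - ε / 2) * n) * (e + 1) := by ring
        _ ≤ (c * L) * (e + 1) := mul_le_mul_of_nonneg_right e1 (by linarith)
        _ = c * (e + 1) * L := by ring
  have k2 : (c + 1) * a * L ≤ ε / 2 * N + (c + 1) * (L + 1) * (L + 1) * (L : ℝ) := by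
    have e1 : (H : ℝ) * ((c + 1) * a * L) ≤
        H * (ε / 2 * N + (c + 1) * (L + 1) * (L + 1) * (L : ℝ)) := by
      have e2 : (H : ℝ) * ((c + 1) * a * L) ≤ (c + 1) * L * ((L + 1) * (N + L + H)) := by
        have := mul_le_mul_of_nonneg_left h4' (show (0 : ℝ) ≤ (c + 1) * L by positivity)
        linarith
      have e3 : (c + 1) * L * (L + 1) * (N : ℝ) ≤ H * (ε / 2 * N) := by
        have := mul_le_mul_of_nonneg_right g2 hN0
        linarith
      have e4 : (L : ℝ) + H ≤ H * (L + 1) := by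
        have := mul_le_mul_of_nonneg_right hH1 hL'.le
        linarith
      have e5 : (c + 1) * L * (L + 1) * ((L : ℝ) + H) ≤ (c + 1) * L * (L + 1) * (H * (L + 1)) :=
        mul_le_mul_of_nonneg_left e4 (by positivity)
      linarith
    exact le_of_mul_le_mul_left e1 (by linarith)
  rw [sub_le_iff_le_add, div_le_iff₀ hL']
  have k3 : (c : ℝ) * (e + 1) * L ≤ (p + (c + 1) * a + c) * L := by
    refine mul_le_mul_of_nonneg_right ?_ hL'.le
    linarith
  linarith

end Vale.Agent.P093.MK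
end

section
open Filter Topology Set
namespace Vale.Agent.P093.MK
open Vale.Agent.P093.Hom

open scoped Classical in
theorem exists_tower {X : Type*} [MetricSpace X] [CompactSpace X] [Nonempty X] (h : X ≃ₜ X)
    (hmin : MarkerProperty h) (L : ℕ) (hL : 0 < L) {ε : ℝ} (hε : 0 < ε) :
    ∃ ω : C(X, ℝ), (∀ x, 0 ≤ ω x) ∧ (∀ x, ω x ≤ 1) ∧
      (∀ x (i j : ℤ), i < j → ω ((h ^ i) x) ≠ 0 → ω ((h ^ j) x) ≠ 0 → (L : ℤ) ≤ j - i) ∧
      ∃ C : ℝ, ∀ x (N : ℕ), (1 - ε) * N / L - C ≤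
        ((Finset.range N).filter fun i : ℕ => ω ((h ^ (i : ℤ)) x) = 1).card :=
  exists_towerA h hmin L hL hε

end Vale.Agent.P093.MK
end

section
open Filter Topology Set
namespace Vale.Agent.P093.MK
open Vale.Agent.P093.Hom

open scoped Classical in
/-- scalar elements: positive functions with prescribed density -/
theorem exists_scalar {X : Type*} [MetricSpace X] [CompactSpace X] [Nonempty X] (h : X ≃ₜ X)
    (hmin : MarkerProperty h) {s s' : ℝ} (hs : 0 ≤ s) (hss : s < s') :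
    ∃ (n : ℕ) (g G : Fin n → C(X, ℝ)), (∀ l x, 0 ≤ g l x) ∧ (∀ l x, g l x ≤ 1) ∧
      (∀ l x, 0 ≤ G l x) ∧ (∀ l x, g l x ≠ 0 → 1 ≤ G l x) ∧
      ∃ C : ℝ, ∀ x (N : ℕ), (∑ j ∈ Finset.range N, ∑ l, G l ((h ^ (j : ℤ)) x) ≤ s' * N + C) ∧
        s * N - C ≤ (Finset.univ.filter
          (fun p : Fin N × Fin n => g p.2 ((h ^ ((p.1 : ℕ) : ℤ)) x) = 1)).card := by
  -- the parameters
  obtain ⟨δ, hδ, hδs⟩ : ∃ δ : ℝ, 0 < δ ∧ s' = s + 4 * δ := ⟨(s' - s) / 4, by linarith, by ring⟩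
  obtain ⟨n, hn⟩ := exists_nat_ge (s' + 1)
  have hn1 : (1 : ℝ) ≤ n := by linarith
  have hn0 : (0 : ℝ) < n := by linarith
  obtain ⟨L, hLn⟩ := exists_nat_ge (n / δ)
  have hL0 : (0 : ℝ) < L := lt_of_lt_of_le (by positivity) hLn
  have hL : 0 < L := by exact_mod_cast hL0
  have hLδ : (n : ℝ) ≤ δ * L := by rwa [div_le_iff₀' hδ] at hLn
  obtain ⟨c, hc⟩ : ∃ c : ℕ, c = ⌈(s + δ) * L / n⌉₊ := ⟨_, rfl⟩
  have hc1 : (s + δ) * L ≤ n * c := by
    have h1 : (s + δ) * L / n ≤ c := by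
      rw [hc]
      exact Nat.le_ceil _
    rwa [div_le_iff₀' hn0] at h1
  have hc2 : n * (c : ℝ) ≤ (s + 2 * δ) * L := by
    have h1 : (c : ℝ) < (s + δ) * L / n + 1 := by
      rw [hc]
      exact Nat.ceil_lt_add_one (by positivity)
    have h2 : n * (c : ℝ) ≤ n * ((s + δ) * L / n + 1) := by gcongr
    rw [mul_add, mul_div_cancel₀ _ hn0.ne'] at h2
    nlinarith
  have hcL : c ≤ L := by
    have h1 : n * (c : ℝ) ≤ n * L := by nlinarith
    exact_mod_cast le_of_mul_le_mul_left h1 hn0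
  obtain ⟨ω, h0, h1, hsep, C₀, hC₀⟩ := exists_tower h hmin L hL (ε := δ / n) (by positivity)
  -- the functions
  let ω₁ : C(X, ℝ) := ⟨fun x => max 0 (2 * ω x - 1), by fun_prop⟩
  let ω₂ : C(X, ℝ) := ⟨fun x => min 1 (2 * ω x), by fun_prop⟩
  have hcont : ∀ k : ℤ, Continuous fun x => (h ^ k) x := fun k => (h ^ k).continuous
  let g : C(X, ℝ) := ⟨fun x => ∑ k ∈ Finset.range c, ω₁ ((h ^ (-(k : ℤ))) x),
    continuous_finsetSum _ fun k _ => ω₁.continuous.comp (hcont _)⟩
  let G : C(X, ℝ) := ⟨fun x => ∑ k ∈ Finset.range c, ω₂ ((h ^ (-(k : ℤ))) x),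
    continuous_finsetSum _ fun k _ => ω₂.continuous.comp (hcont _)⟩
  have hω₁ : ∀ x, ω₁ x = max 0 (2 * ω x - 1) := fun x => rfl
  have hω₂ : ∀ x, ω₂ x = min 1 (2 * ω x) := fun x => rfl
  have hg : ∀ x, g x = ∑ k ∈ Finset.range c, ω₁ ((h ^ (-(k : ℤ))) x) := fun x => rfl
  have hG : ∀ x, G x = ∑ k ∈ Finset.range c, ω₂ ((h ^ (-(k : ℤ))) x) := fun x => rfl
  have hω₁0 : ∀ x, 0 ≤ ω₁ x := fun x => le_max_left _ _
  have hω₁1 : ∀ x, ω₁ x ≤ 1 := fun x => max_le zero_le_one (by linarith [h1 x])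
  have hω₂0 : ∀ x, 0 ≤ ω₂ x := fun x => le_min zero_le_one (by linarith [h0 x])
  have hω₂1 : ∀ x, ω₂ x ≤ 1 := fun x => min_le_left _ _
  have huniq : ∀ x, ∀ i j : ℤ, |i - j| < L → ω ((h ^ i) x) ≠ 0 → ω ((h ^ j) x) ≠ 0 → i = j := by
    intro x i j hij hi hj
    rw [abs_lt] at hij
    rcases lt_trichotomy i j with h3 | h3 | h3
    · have := hsep x i j h3 hi hj
      omega
    · exact h3
    · have := hsep x j i h3 hj hi
      omega
  have hg0 : ∀ x, 0 ≤ g x := by
    intro x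
    rw [hg]
    exact Finset.sum_nonneg fun k _ => hω₁0 _
  have hg1 : ∀ x, g x ≤ 1 := by
    intro x
    rw [hg]
    by_cases hk : ∃ k ∈ Finset.range c, ω ((h ^ (-(k : ℤ))) x) ≠ 0
    · obtain ⟨k, hk, hk'⟩ := hk
      rw [Finset.sum_eq_single_of_mem k hk]
      · exact hω₁1 _
      · intro l hl hlk
        have h3 : ω ((h ^ (-(l : ℤ))) x) = 0 := by
          by_contra h3
          rw [Finset.mem_range] at hk hl
          have := huniq x _ _ (by rw [abs_lt]; omega) h3 hk'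
          exact hlk (by omega)
        rw [hω₁, h3]
        norm_num
    · push Not at hk
      rw [Finset.sum_eq_zero]
      · exact zero_le_one
      · intro l hl
        rw [hω₁, hk l hl]
        norm_num
  have hG0 : ∀ x, 0 ≤ G x := by
    intro x
    rw [hG]
    exact Finset.sum_nonneg fun k _ => hω₂0 _
  have hgG : ∀ x, g x ≠ 0 → 1 ≤ G x := by
    intro x hx
    rw [hg] at hx
    obtain ⟨k, hk, hk'⟩ := Finset.exists_ne_zero_of_sum_ne_zero hx
    have h3 : 1 ≤ ω₂ ((h ^ (-(k : ℤ))) x) := by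
      rw [hω₁] at hk'
      rw [hω₂]
      refine le_min le_rfl ?_
      by_contra h4
      push Not at h4
      exact hk' (max_eq_left (by linarith))
    exact h3.trans (Finset.single_le_sum (f := fun k : ℕ => ω₂ ((h ^ (-(k : ℤ))) x))
      (fun _ _ => hω₂0 _) hk)
  have hgone : ∀ x, ∀ k < c, ω ((h ^ (-(k : ℤ))) x) = 1 → g x = 1 := by
    intro x k hk hx
    refine le_antisymm (hg1 x) ?_
    have h3 : ω₁ ((h ^ (-(k : ℤ))) x) = 1 := by
      rw [hω₁, hx]
      norm_num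
    rw [← h3]
    exact Finset.single_le_sum (f := fun k : ℕ => ω₁ ((h ^ (-(k : ℤ))) x))
      (fun _ _ => hω₁0 _) (Finset.mem_range.2 hk)
  -- upper bound
  have hup : ∀ x (N : ℕ), ∑ j ∈ Finset.range N, G ((h ^ (j : ℤ)) x) ≤ c * (N / L + 1) := by
    intro x N
    simp only [hG]
    rw [Finset.sum_comm, ← nsmul_eq_mul]
    refine (Finset.sum_le_card_nsmul _ _ ((N : ℝ) / L + 1) fun k _ => ?_).trans_eq
      (by rw [Finset.card_range])
    have h3 : ∀ j ∈ Finset.range N, ω₂ ((h ^ (-(k : ℤ))) ((h ^ (j : ℤ)) x)) ≤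
        if ω ((h ^ ((j : ℤ) - k)) x) ≠ 0 then 1 else 0 := by
      intro j _
      rw [← zpow_add_apply', neg_add_eq_sub]
      split_ifs with h4
      · exact hω₂1 _
      · push Not at h4
        rw [hω₂, h4]
        norm_num
    refine (Finset.sum_le_sum h3).trans ?_
    rw [Finset.sum_boole]
    refine card_le_of_gap _ N L hL (fun i hi => ?_) fun i hi j hj hij => ?_
    · exact Finset.mem_range.1 (Finset.mem_filter.1 hi).1
    · have := hsep x _ _ (by omega : (i : ℤ) - k < (j : ℤ) - k) (Finset.mem_filter.1 hi).2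
        (Finset.mem_filter.1 hj).2
      omega
  -- lower bound
  have hlow : ∀ x (N : ℕ), (c : ℝ) * ((1 - δ / n) * N / L - C₀) - c ≤
      ((Finset.range N).filter fun j : ℕ => g ((h ^ (j : ℤ)) x) = 1).card := by
    intro x N
    have h3 : c * ((Finset.range N).filter fun i : ℕ => ω ((h ^ (i : ℤ)) x) = 1).card ≤
        ((Finset.range N).filter fun j : ℕ => g ((h ^ (j : ℤ)) x) = 1).card + c := by
      calc c * ((Finset.range N).filter fun i : ℕ => ω ((h ^ (i : ℤ)) x) = 1).card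
          = (((Finset.range N).filter fun i : ℕ => ω ((h ^ (i : ℤ)) x) = 1) ×ˢ
              Finset.range c).card := by
            rw [Finset.card_product, Finset.card_range, mul_comm]
        _ ≤ ((Finset.range (N + c)).filter fun j : ℕ => g ((h ^ (j : ℤ)) x) = 1).card := by
            refine Finset.card_le_card_of_injOn (fun p => p.1 + p.2) (fun p hp => ?_) ?_
            · simp only [Finset.coe_product, Finset.coe_filter, Finset.coe_range, Set.mem_prod,
                Finset.mem_range, Set.mem_Iio] at hp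
              obtain ⟨⟨hp1, hp2⟩, hp3⟩ := hp
              refine Finset.mem_coe.2 (Finset.mem_filter.2
                ⟨Finset.mem_range.2 (add_lt_add hp1 hp3), hgone _ p.2 hp3 ?_⟩)
              rw [← zpow_add_apply']
              push_cast
              rw [neg_add_eq_sub, add_sub_cancel_right]
              exact hp2
            · rintro ⟨i, k⟩ hp ⟨i', k'⟩ hp' heq
              simp only [Finset.coe_product, Finset.coe_filter, Finset.coe_range, Set.mem_prod,
                Finset.mem_range, Set.mem_Iio] at hp hp'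
              simp only at heq
              obtain ⟨⟨hp1, hp2⟩, hp3⟩ := hp
              obtain ⟨⟨hp1', hp2'⟩, hp3'⟩ := hp'
              have := huniq x i i' (by rw [abs_lt]; omega) (by rw [hp2]; exact one_ne_zero)
                (by rw [hp2']; exact one_ne_zero)
              have h5 : i = i' := by exact_mod_cast this
              subst h5
              have h6 : k = k' := by omega
              rw [h6]
        _ ≤ (((Finset.range N).filter fun j : ℕ => g ((h ^ (j : ℤ)) x) = 1) ∪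
              Finset.Ico N (N + c)).card := by
            refine Finset.card_le_card fun j hj => ?_
            rw [Finset.mem_filter, Finset.mem_range] at hj
            rw [Finset.mem_union, Finset.mem_filter, Finset.mem_range, Finset.mem_Ico]
            by_cases h4 : j < N
            · exact Or.inl ⟨h4, hj.2⟩
            · exact Or.inr ⟨by omega, hj.1⟩
        _ ≤ _ := by
            refine (Finset.card_union_le _ _).trans ?_
            rw [Nat.card_Ico]
            omega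
    have h4 := hC₀ x N
    have h5 : (c : ℝ) * ((Finset.range N).filter fun i : ℕ => ω ((h ^ (i : ℤ)) x) = 1).card ≤
        ((Finset.range N).filter fun j : ℕ => g ((h ^ (j : ℤ)) x) = 1).card + c := by
      exact_mod_cast h3
    have h6 : (c : ℝ) * ((1 - δ / n) * N / L - C₀) ≤
        c * ((Finset.range N).filter fun i : ℕ => ω ((h ^ (i : ℤ)) x) = 1).card := by gcongr
    linarith
  refine ⟨n, fun _ => g, fun _ => G, fun _ => hg0, fun _ => hg1, fun _ => hG0, fun _ => hgG,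
    n * c * (|C₀| + 1), fun x N => ⟨?_, ?_⟩⟩
  · simp only [Finset.sum_const, Finset.card_univ, Fintype.card_fin, nsmul_eq_mul]
    rw [← Finset.mul_sum]
    have h3 := hup x N
    have h4 : (n : ℝ) * ∑ j ∈ Finset.range N, G ((h ^ (j : ℤ)) x) ≤ n * (c * (N / L + 1)) := by
      gcongr
    have h5 : (n : ℝ) * (c * (N / L + 1)) = (n * c) * (N / L) + n * c := by ring
    have h6 : (n * c : ℝ) * (N / L) ≤ (s + 2 * δ) * L * (N / L) := by gcongr
    have h7 : (s + 2 * δ) * L * ((N : ℝ) / L) = (s + 2 * δ) * N := by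
      field_simp
    have h8 : (s + 2 * δ) * N ≤ s' * N := by
      rw [hδs]
      gcongr
      linarith
    have h9 : (n * c : ℝ) ≤ n * c * (|C₀| + 1) := by
      nlinarith [abs_nonneg C₀, (by positivity : (0 : ℝ) ≤ n * c)]
    linarith
  · have hcard : (Finset.univ.filter
        (fun p : Fin N × Fin n => g ((h ^ ((p.1 : ℕ) : ℤ)) x) = 1)).card =
        ((Finset.range N).filter fun j : ℕ => g ((h ^ (j : ℤ)) x) = 1).card * n := by
      have h3 : (Finset.univ.filter
          (fun p : Fin N × Fin n => g ((h ^ ((p.1 : ℕ) : ℤ)) x) = 1)) =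
          (Finset.univ.filter fun j : Fin N => g ((h ^ ((j : ℕ) : ℤ)) x) = 1) ×ˢ
            (Finset.univ : Finset (Fin n)) := by
        ext p
        simp
      rw [h3, Finset.card_product, Finset.card_univ, Fintype.card_fin]
      congr 1
      rw [Finset.card_filter, Finset.card_filter]
      exact Fin.sum_univ_eq_sum_range (fun j => if g ((h ^ (j : ℤ)) x) = 1 then 1 else 0) N
    rw [hcard]
    push_cast
    have h3 := hlow x N
    have h4 : ((c : ℝ) * ((1 - δ / n) * N / L - C₀) - c) * n ≤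
        ((Finset.range N).filter fun j : ℕ => g ((h ^ (j : ℤ)) x) = 1).card * n := by gcongr
    refine le_trans ?_ h4
    have h5 : ((c : ℝ) * ((1 - δ / n) * N / L - C₀) - c) * n =
        (n * c) * (N / L) - δ * c * (N / L) - n * c * (C₀ + 1) := by
      field_simp
      ring
    have h6 : (s + δ) * L * ((N : ℝ) / L) ≤ (n * c) * (N / L) := by gcongr
    have h7 : (s + δ) * L * ((N : ℝ) / L) = (s + δ) * N := by
      field_simp
    have h8 : δ * c * ((N : ℝ) / L) ≤ δ * L * (N / L) := by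
      gcongr
    have h9 : δ * L * ((N : ℝ) / L) = δ * N := by
      field_simp
    have h10 : n * c * (C₀ + 1) ≤ n * c * (|C₀| + 1) := by
      gcongr
      exact le_abs_self _
    rw [h5]
    linarith

end Vale.Agent.P093.MK
end

section
open Filter Topology Set
open scoped ENNReal ComplexOrder
namespace Vale.Agent.P093.MK
open Vale.Agent.P093.Hom

open scoped Classical in
theorem exists_family {X : Type*} [MetricSpace X] [CompactSpace X] [Nonempty X]
    {A : Type*} [CStarAlgebra A] [PartialOrder A] [StarOrderedRing A] {h : X ≃ₜ X}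
    (hmin : MarkerProperty h) (hA : IsCrossedProduct h A) {r : ℝ} (hr : IsComparisonBound A r)
    {κ t L : ℕ} (hL : 0 < L) (ω : C(X, ℝ)) (hω0 : ∀ x, 0 ≤ ω x) (hω1 : ∀ x, ω x ≤ 1)
    {ε : ℝ} (hcount : ∃ C : ℝ, ∀ x (N : ℕ), (1 - ε) * N / L - C ≤
      ((Finset.range N).filter fun i : ℕ => ω ((h ^ (i : ℤ)) x) = 1).card)
    (ψ : Fin t → ℕ → C(X, ℝ)) {s : ℝ} (hs0 : 0 ≤ s) (hs : s + r < κ * t * (1 - ε) / L) :
    ∃ (R : ℕ) (C : ℝ), ∀ (N a : ℕ), (2 * κ * a + 1 : ℝ) ≤ s * N - C →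
      ∃ F : Fin (N + 2 * R) → Fin t → Fin κ → Fin 2 → X → (Fin (2 * κ * a) → Fin 2 → ℂ) → ℂ,
        (∀ i G k e, Continuous fun z : X × (Fin (2 * κ * a) → Fin 2 → ℂ) => F i G k e z.1 z.2) ∧
        (∀ i G k e x, MultiHom (F i G k e x)) ∧
        (∀ i G k e x (σ : Equiv.Perm (Fin (2 * κ * a))) q,
          F i G k e x (fun j => q (σ j)) = F i G k e x q) ∧
        (∀ x q, (∀ j, q j ≠ 0) → ∃ i G k e, F i G k e x q ≠ 0) ∧
        (∀ (i : Fin (N + 2 * R)) G k e x q, F i G k e x q ≠ 0 → 3 / 4 < ω ((h ^ ((i : ℕ) - (R : ℤ) : ℤ)) x)) ∧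
        ∀ (i : Fin (N + 2 * R)) G (k : Fin κ) x q, let x' := (h ^ ((i : ℕ) - (R : ℤ) : ℤ)) x
          rho k / 2 ≤ rad (nF (fun j x => ψ G j x - 1 / 2) rho k)
            (fun x => ψ G (2 * k + 1) x - 1 / 2) (fun x => ψ G (2 * k + 2) x - 1 / 2) x' →
          HopfRel (nF (fun j x => ψ G j x - 1 / 2) rho k x')
            (ψ G (2 * k + 1) x' - 1 / 2) (ψ G (2 * k + 2) x' - 1 / 2)
            (F i G k 0 x q) (F i G k 1 x q) := by
  have hfree : ∀ (k : ℤ) (x : X), k ≠ 0 → (h ^ k) x ≠ x := by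
    intro k x hk
    rcases lt_trichotomy k 0 with h0 | h0 | h0
    · intro hx
      refine not_periodic h hmin x (n := -k) (by omega) ?_
      have h1 : (h ^ (-k)) ((h ^ k) x) = x := by
        rw [← zpow_add_apply']; simp
      rwa [hx] at h1
    · exact absurd h0 hk
    · exact not_periodic h hmin x h0
  obtain ⟨C₀, hC₀⟩ := hcount
  obtain ⟨M, hM⟩ : ∃ M : ℝ, M = κ * t * (1 - ε) / L := ⟨_, rfl⟩
  obtain ⟨δ, hδ⟩ : ∃ δ : ℝ, δ = (M - s - r) / 3 := ⟨_, rfl⟩
  have hδ0 : 0 < δ := by rw [hδ, hM]; linarith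
  obtain ⟨n, g, G, hg0, hg1, hG0, hG, C₁, hC₁⟩ := exists_scalar h hmin hs0 (s' := s + δ) (by linarith)
  obtain ⟨β', hβ'1, hβ'2, hβ'3, hβ'4, hβ'5, hβ'6⟩ := exists_b (κ := κ) ω hω0 hω1 ψ
  obtain ⟨m, E, -⟩ : ∃ (m : ℕ) (E : Fin t × Fin κ × Fin 2 ≃ Fin m), True :=
    ⟨_, Fintype.equivFin _, trivial⟩
  let β : Fin m → Fin m → C(X, ℂ) := fun k k' => β' (E.symm k) (E.symm k')
  obtain ⟨N₀, hN₀⟩ := exists_nat_gt ((C₁ + t * κ * C₀) / δ)
  have hN₀' : C₁ + t * κ * C₀ ≤ δ * (N₀ + 1 : ℕ) := by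
    rw [div_lt_iff₀ hδ0] at hN₀
    push_cast
    nlinarith
  have b1 : ∀ x, (Matrix.of fun k k' => β k k' x).PosSemidef := fun x =>
    (hβ'1 x).submatrix E.symm
  have b2 : ∀ x, (1 - Matrix.of fun k k' => β k k' x).PosSemidef := by
    intro x
    have h1 := (hβ'2 x).submatrix E.symm
    have h2 : (1 - Matrix.of fun k k' => β k k' x) =
        (1 - Matrix.of fun k k' => β' k k' x).submatrix E.symm E.symm := by
      ext i j
      simp [β, Matrix.one_apply]
    rw [h2]; exact h1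
  have b3 : ∀ x, ∑ j ∈ Finset.range (N₀ + 1), ∑ l, G l ((h ^ (j : ℤ)) x) +
      (r + δ) * (N₀ + 1 : ℕ) ≤
      ∑ j ∈ Finset.range (N₀ + 1), ∑ k, (β k k ((h ^ (j : ℤ)) x)).re := by
    intro x
    have h1 := (hC₁ x (N₀ + 1)).1
    have h2 := hC₀ x (N₀ + 1)
    have h3 : ∀ j : ℕ, (if ω ((h ^ (j : ℤ)) x) = 1 then (t * κ : ℝ) else 0) ≤
        ∑ k, (β k k ((h ^ (j : ℤ)) x)).re := by
      intro j
      have e : ∑ k, (β k k ((h ^ (j : ℤ)) x)).re = ∑ k, (β' k k ((h ^ (j : ℤ)) x)).re :=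
        Equiv.sum_comp E.symm fun k => (β' k k ((h ^ (j : ℤ)) x)).re
      rw [e]
      split_ifs with h4
      · exact hβ'3 _ h4
      · exact hβ'4 _
    have h5 := Finset.sum_le_sum (s := Finset.range (N₀ + 1)) fun j _ => h3 j
    rw [← Finset.sum_filter, Finset.sum_const, nsmul_eq_mul] at h5
    have h6 : (t * κ : ℝ) * ((1 - ε) * (N₀ + 1 : ℕ) / L - C₀) ≤
        (((Finset.range (N₀ + 1)).filter fun i : ℕ => ω ((h ^ (i : ℤ)) x) = 1).card : ℝ) *
          (t * κ) := by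
      rw [mul_comm]
      exact mul_le_mul_of_nonneg_right h2 (by positivity)
    have h7 : (t * κ : ℝ) * ((1 - ε) * (N₀ + 1 : ℕ) / L - C₀) =
        M * (N₀ + 1 : ℕ) - t * κ * C₀ := by
      rw [hM]; ring
    have h8 : M = s + r + 3 * δ := by rw [hδ]; ring
    rw [h7, h8] at h6
    linarith
  obtain ⟨R, K, hcore⟩ := exists_core (β := β) hfree hA hr g G (r + δ) (N₀ + 1) (Nat.succ_pos _)
    (by linarith) hg0 hg1 hG0 hG b1 b2 b3
  refine ⟨R, C₁, fun N a hNa => ?_⟩
  refine ⟨fun i G k e x q => ∑ κ', β' (G, k, e) κ' ((h ^ ((i : ℕ) - (R : ℤ) : ℤ)) x) *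
    famU h g K R N x q ((i : ℕ) - (R : ℤ) : ℤ) (E κ'), ?_, ?_, ?_, ?_, ?_, ?_⟩
  · intro i G k e
    refine continuous_finsetSum _ fun κ' _ => ?_
    exact ((β' (G, k, e) κ').continuous.comp ((h ^ _).continuous.comp continuous_fst)).mul
      (famU_cont h g K R N _ _)
  · intro i G k e x q c
    dsimp only
    rw [Finset.mul_sum]
    refine Finset.sum_congr rfl fun κ' _ => ?_
    rw [famU_hom]; ring
  · intro i G k e x σ q
    dsimp only
    refine Finset.sum_congr rfl fun κ' _ => ?_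
    rw [famU_symm]
  · intro x q hq
    by_contra hcon
    push Not at hcon
    have hz := hcore x (Finset.Ico (0 : ℤ) N) (famZ h g x q)
      (fun j _ l hz => famZ_ne h g x q j l hz) ?_
    · refine famZ_nonvanishing h g x q hq N (Finset.univ.filter
        (fun p : Fin N × Fin n => g p.2 ((h ^ ((p.1 : ℕ) : ℤ)) x) = 1)) ?_ ?_ hz
      · intro a ha
        exact (Finset.mem_filter.1 ha).2
      · have h1 := (hC₁ x N).2
        have h2 : ((2 * κ * a + 1 : ℕ) : ℝ) ≤ ((Finset.univ.filter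
          (fun p : Fin N × Fin n => g p.2 ((h ^ ((p.1 : ℕ) : ℤ)) x) = 1)).card : ℝ) := by
          push_cast
          linarith
        exact_mod_cast h2
    · intro i κ₁
      change ∑ κ', β κ₁ κ' ((h ^ i) x) * famU h g K R N x q i κ' = 0
      by_cases hi : i < -(R : ℤ) ∨ (N : ℤ) + R ≤ i
      · refine Finset.sum_eq_zero fun κ' _ => ?_
        rw [famU_zero h g K R N x q i κ' hi, mul_zero]
      · push Not at hi
        obtain ⟨i', hi'⟩ : ∃ i' : Fin (N + 2 * R), i = (i' : ℕ) - (R : ℤ) := by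
          refine ⟨⟨(i + R).toNat, ?_⟩, ?_⟩
          · omega
          · dsimp only
            omega
        have h1 := hcon i' (E.symm κ₁).1 (E.symm κ₁).2.1 (E.symm κ₁).2.2
        rw [← hi'] at h1
        rw [← Equiv.sum_comp E]
        simpa [β] using h1
  · intro i G k e x q hne
    obtain ⟨κ', -, hκ'⟩ := Finset.exists_ne_zero_of_sum_ne_zero hne
    exact hβ'5 _ _ _ (left_ne_zero_of_mul hκ')
  · intro i G k x q x' hx'
    exact hβ'6 x' (fun κ' => famU h g K R N x q ((i : ℕ) - (R : ℤ) : ℤ) (E κ')) G k hx'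

end Vale.Agent.P093.MK
end

section
open Set
open scoped ENNReal
namespace Vale.Agent.P093.MK
open Vale.Agent.P093.Hom

theorem dyn_cover {X : Type*} [MetricSpace X] [CompactSpace X] [Nonempty X]
    {A : Type*} [CStarAlgebra A] [PartialOrder A] [StarOrderedRing A] {h : X ≃ₜ X}
    (hmin : MarkerProperty h) (hA : IsCrossedProduct h A) {r : ℝ} (hr : IsComparisonBound A r)
    {𝒰 : Set (Set X)} (h𝒰 : IsFinOpenCover 𝒰) {κ L : ℕ} (hκ : 1 ≤ κ) (hL : 0 < L) {ε : ℝ}
    (hε : 0 < ε) {s : ℝ} (hs0 : 0 ≤ s)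
    (hs : s + r < κ * ((coverDim (iterCover h 𝒰 L) + 1) / (2 * κ + 1) : ℕ) * (1 - ε) / L) :
    ∃ C' : ℝ, ∀ N a D : ℕ, (2 * κ * a + 1 : ℝ) ≤ s * N - C' →
      (coverDim (iterCover h 𝒰 L) + 1) * (N / L : ℝ) + (coverDim 𝒰 + 1) * (ε * N) + C' ≤
        D + a + 1 → HomOrderLE (iterCover h 𝒰 N) D := by
  classical
  obtain ⟨ψ, P, hψ01, hψ, hP, hPl⟩ := exists_colours _ (isFinOpenCover_iterCover h h𝒰 L)
  obtain ⟨ψ₁, P₁, hψ₁01, hψ₁, hP₁, hPl₁⟩ := exists_colours _ h𝒰
  obtain ⟨ω, hω0, hω1, hsep, hcount⟩ := exists_tower h hmin L hL hε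
  obtain ⟨R₀, C₀, hfam⟩ := exists_family (κ := κ)
    (t := (coverDim (iterCover h 𝒰 L) + 1) / (2 * κ + 1)) hmin hA hr hL ω hω0 hω1 hcount
    (fun G k => ψ ((G : ℕ) * (2 * κ + 1) + k)) hs0 hs
  obtain ⟨C₁, hC₁⟩ := count_uncovered h hL ω hsep hε hcount
  have hU₀ : ∃ U₀, U₀ ∈ 𝒰 := by
    have h1 : (Classical.arbitrary X) ∈ ⋃₀ 𝒰 := by rw [h𝒰.2.2]; trivial
    obtain ⟨U, hU, -⟩ := h1
    exact ⟨U, hU⟩
  obtain ⟨U₀, hU₀⟩ := hU₀
  have hL' : (0 : ℝ) < L := Nat.cast_pos.mpr hL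
  have e1 : (0 : ℝ) ≤ (coverDim (iterCover h 𝒰 L) + 1) * (2 * ((R₀ + L : ℕ) : ℝ) / L + 1) := by
    positivity
  have e2 : (0 : ℝ) ≤ (coverDim 𝒰 + 1) * |C₁| := by positivity
  refine ⟨|C₀| + (coverDim (iterCover h 𝒰 L) + 1) * (2 * ((R₀ + L : ℕ) : ℝ) / L + 1) +
    (coverDim 𝒰 + 1) * |C₁|, fun N a D h1 h2 => ?_⟩
  obtain ⟨F, f1, f2, f3, f4, f5, f6⟩ := hfam N a (by
    have := le_abs_self C₀
    linarith)
  have hF : DcFam h ω (fun (G : Fin ((coverDim (iterCover h 𝒰 L) + 1) / (2 * κ + 1))) k =>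
      ψ ((G : ℕ) * (2 * κ + 1) + k)) R₀ N a F :=
    ⟨f1, f2, f3, f4, f5, fun i G k x q x' hx' hrad => by
      subst hx'
      exact f6 i G k x q hrad⟩
  obtain ⟨F', hF'⟩ := hF.extend L
  refine dc_main hκ hL (Nat.le_add_left L R₀) ω (Nat.div_mul_le_self _ _) ψ ψ₁ P P₁ hψ01 hψ₁01 hψ
    hψ₁ hP hP₁ hPl hPl₁ U₀ hU₀ F' hF' fun x => ?_
  have g1 := count_windows h hL ω hsep x (-((R₀ + L : ℕ) : ℤ)) (N + ((R₀ + L : ℕ) : ℤ)) (by omega)
  have g2 := hC₁ x N
  have g3 := mul_le_mul_of_nonneg_left g1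
    (by positivity : (0 : ℝ) ≤ (coverDim (iterCover h 𝒰 L) + 1))
  have g4 := mul_le_mul_of_nonneg_left (g2.trans (add_le_add_right (le_abs_self C₁) _))
    (by positivity : (0 : ℝ) ≤ (coverDim 𝒰 + 1))
  have g5 : (((N + ((R₀ + L : ℕ) : ℤ) - -((R₀ + L : ℕ) : ℤ) : ℤ)) : ℝ) / L + 1 =
      (N : ℝ) / L + (2 * ((R₀ + L : ℕ) : ℝ) / L + 1) := by
    push_cast
    ring
  rw [g5] at g3
  have g6 := abs_nonneg C₀
  have g7 : ((coverDim (iterCover h 𝒰 L) + 1 : ℝ) * (((Finset.Ico (-((R₀ + L : ℕ) : ℤ))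
      (N + ((R₀ + L : ℕ) : ℤ))).filter fun i => ω ((h ^ i) x) ≠ 0).card : ℝ) +
      (coverDim 𝒰 + 1) * (((Finset.range N).filter fun j : ℕ => ∀ i : ℤ, (j : ℤ) - L < i → i ≤ j →
        ω ((h ^ i) x) < 3 / 4).card : ℝ)) ≤ D + a + 1 := by
    nlinarith [g3, g4, h2, g6]
  exact_mod_cast g7

end Vale.Agent.P093.MK
end

section
open Filter Topology Set
open scoped ENNReal
namespace Vale.Agent.P093.MK
open Vale.Agent.P093.Hom

theorem fi_step {X : Type*} [MetricSpace X] [CompactSpace X] [Nonempty X]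
    {A : Type*} [CStarAlgebra A] [PartialOrder A] [StarOrderedRing A] {h : X ≃ₜ X}
    (hmin : MarkerProperty h) (hA : IsCrossedProduct h A) {r : ℝ} (hr : IsComparisonBound A r)
    {𝒰 : Set (Set X)} (h𝒰 : IsFinOpenCover 𝒰) {κ L : ℕ} (hκ : 1 ≤ κ) (hL : 0 < L) {θ : ℝ}
    (hθ : 0 < θ) :
    κ * (((coverDim (iterCover h 𝒰 L) + 1) / (2 * κ + 1) : ℕ) : ℝ) / L ≤ r + θ ∨
      2 * κ * (limsup (fun N : ℕ => (homOrder (iterCover h 𝒰 N) : ℝ≥0∞) / N) atTop).toReal ≤
        2 * κ * ((coverDim (iterCover h 𝒰 L) + 1 : ℝ) / L) -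
          κ * (((coverDim (iterCover h 𝒰 L) + 1) / (2 * κ + 1) : ℕ) : ℝ) / L + r + θ := by
  set n := coverDim (iterCover h 𝒰 L) with hn
  set n₁ := coverDim 𝒰 with hn₁
  set t := (n + 1) / (2 * κ + 1) with ht
  have htn : (t : ℝ) ≤ n + 1 := by exact_mod_cast Nat.div_le_self (n + 1) (2 * κ + 1)
  have hκ' : (1 : ℝ) ≤ κ := Nat.one_le_cast.2 hκ
  have hL' : (0 : ℝ) < L := Nat.cast_pos.2 hL
  have hr0 : 0 ≤ r := hr.1
  have ht0 : (0 : ℝ) ≤ t := Nat.cast_nonneg t
  have hn10 : (0 : ℝ) ≤ n₁ := Nat.cast_nonneg n₁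
  set b : ℝ := κ * (t : ℝ) / L with hb
  have hb0 : 0 ≤ b := by positivity
  by_cases hbr : b ≤ r + θ
  · exact Or.inl hbr
  right
  push Not at hbr
  set Kc : ℝ := b + 2 * κ * (n₁ + 1) with hKc
  have hKc0 : 0 < Kc := by positivity
  set ε : ℝ := min (1 / 2) (θ / (2 * Kc)) with hε
  have hε0 : 0 < ε := lt_min (by norm_num) (by positivity)
  have hε1 : ε ≤ 1 / 2 := min_le_left _ _
  have hεK : ε * Kc ≤ θ / 2 := by
    have h1 : ε ≤ θ / (2 * Kc) := min_le_right _ _
    rw [le_div_iff₀ (by positivity)] at h1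
    linarith
  have hεb : ε * b + 2 * κ * (n₁ + 1) * ε ≤ θ / 2 := by
    rw [hKc] at hεK
    linarith
  have hεb' : 0 ≤ 2 * κ * (n₁ + 1) * ε := by positivity
  set s : ℝ := b * (1 - ε) - r - θ / 2 with hs
  have hs0 : 0 < s := by
    rw [hs]
    linarith
  have hsb : s ≤ b := by
    have : 0 ≤ ε * b := by positivity
    rw [hs]
    linarith
  have hs1 : s + r < κ * ((n + 1) / (2 * κ + 1) : ℕ) * (1 - ε) / L := by
    have e : (κ * ((n + 1) / (2 * κ + 1) : ℕ) * (1 - ε) / L : ℝ) = b * (1 - ε) := by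
      rw [hb, ht]
      ring
    rw [e, hs]
    linarith
  obtain ⟨C', hC'⟩ := dyn_cover hmin hA hr h𝒰 hκ hL hε0 hs0.le hs1
  rw [← hn, ← hn₁] at hC'
  set β : ℝ := (n + 1) / L + (n₁ + 1) * ε - s / (2 * κ) with hβ
  have hbn : b ≤ κ * ((n + 1) / L) := by
    rw [hb, mul_div_assoc]
    exact mul_le_mul_of_nonneg_left (div_le_div_of_nonneg_right htn hL'.le) (by positivity)
  have hy0 : (0 : ℝ) ≤ (n + 1) / L := by positivity
  have hβ0 : 0 ≤ β := by
    have h1 : s / (2 * κ) ≤ (n + 1) / L := by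
      rw [div_le_iff₀ (by positivity)]
      have h3 : 0 ≤ κ * ((n + 1) / L : ℝ) := by positivity
      linarith
    have h2 : 0 ≤ (n₁ + 1) * ε := by positivity
    rw [hβ]
    linarith
  have hz := fi_limsup_le (f := fun N => homOrder (iterCover h 𝒰 N)) (β := β)
    (C := 2 * |C'| + 2) hβ0 (N₀ := ⌈(|C'| + 1) / s⌉₊) fun N hN => by
      have hN1 : |C'| + 1 ≤ s * N := by
        have h1 := Nat.ceil_le.1 hN
        rw [div_le_iff₀ hs0] at h1
        linarith
      have hC1 := le_abs_self C'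
      have hC2 := neg_abs_le C'
      have hx0 : 0 ≤ (s * N - C' - 1) / (2 * κ) := div_nonneg (by linarith) (by positivity)
      have ha := Nat.floor_le hx0
      have ha' := Nat.lt_floor_add_one ((s * N - C' - 1) / (2 * κ))
      set a := ⌊(s * N - C' - 1) / (2 * κ)⌋₊
      have h2a : (2 * κ * a + 1 : ℝ) ≤ s * N - C' := by
        rw [le_div_iff₀ (by positivity)] at ha
        linarith
      set x : ℝ := (n + 1) * (N / L : ℝ) + (n₁ + 1) * (ε * N) + C' - a - 1 with hx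
      have hD := Nat.le_ceil x
      have hle : homOrder (iterCover h 𝒰 N) ≤ ⌈x⌉₊ :=
        Nat.sInf_le (hC' N a ⌈x⌉₊ h2a (by linarith))
      have hDx : (⌈x⌉₊ : ℝ) ≤ β * N + (2 * |C'| + 2) := by
        have hxb : x ≤ β * N + (2 * |C'| + 1) := by
          have e1 : (s * N - C' - 1) / (2 * κ) = s / (2 * κ) * N - (C' + 1) / (2 * κ) := by
            ring
          have e2 : (C' + 1) / (2 * κ) ≤ |C'| + 1 := by
            rw [div_le_iff₀ (by positivity)]
            have h3 : (|C'| + 1) * 1 ≤ (|C'| + 1) * (2 * κ) :=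
              mul_le_mul_of_nonneg_left (by linarith) (by positivity)
            linarith
          have e3 : (n + 1) * (N / L : ℝ) = (n + 1) / L * N := by ring
          rw [e1] at ha'
          rw [hx, e3, hβ]
          linarith
        rcases le_or_gt 0 x with h0 | h0
        · have := Nat.ceil_lt_add_one h0
          linarith
        · rw [Nat.ceil_eq_zero.2 h0.le]
          have : 0 ≤ β * N := by positivity
          have := abs_nonneg C'
          push_cast
          linarith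
      exact (Nat.cast_le.2 hle).trans hDx
  have hz' := ENNReal.toReal_le_of_le_ofReal hβ0 hz
  set z := (limsup (fun N : ℕ => (homOrder (iterCover h 𝒰 N) : ℝ≥0∞) / N) atTop).toReal
  have h1 : 2 * κ * z ≤ 2 * κ * β := mul_le_mul_of_nonneg_left hz' (by positivity)
  have h2 : 2 * κ * β = 2 * κ * ((n + 1) / L) + 2 * κ * (n₁ + 1) * ε - s := by
    rw [hβ]
    field_simp
  rw [h2, hs] at h1
  linarith

/-- The key estimate for one cover. -/
theorem cover_key {X : Type*} [MetricSpace X] [CompactSpace X] [Nonempty X]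
    {A : Type*} [CStarAlgebra A] [PartialOrder A] [StarOrderedRing A] {h : X ≃ₜ X}
    (hmin : MarkerProperty h) (hA : IsCrossedProduct h A) {r : ℝ} (hr : IsComparisonBound A r)
    {κ : ℕ} (hκ : 1 ≤ κ) {𝒰 : Set (Set X)} (h𝒰 : IsFinOpenCover 𝒰) :
    2 * κ * (limsup (fun N : ℕ => (homOrder (iterCover h 𝒰 N) : ℝ≥0∞) / N) atTop).toReal -
      (2 * κ - κ / (2 * κ + 1)) *
        (limsup (fun N : ℕ => (coverDim (iterCover h 𝒰 N) : ℝ≥0∞) / N) atTop).toReal ≤ r := by
  have hzδ := fi_limsup_le_limsup h h𝒰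
  set δ' := limsup (fun N : ℕ => (coverDim (iterCover h 𝒰 N) : ℝ≥0∞) / N) atTop with hδ'
  have hδfin : δ' ≠ ∞ := limsup_coverDim_ne_top h h𝒰
  have hzδ' := ENNReal.toReal_mono hδfin hzδ
  have hδe : δ' = ENNReal.ofReal δ'.toReal := (ENNReal.ofReal_toReal hδfin).symm
  have hκ' : (1 : ℝ) ≤ κ := Nat.one_le_cast.2 hκ
  have hstep := fun (L : ℕ) (hL : 0 < L) (θ : ℝ) (hθ : 0 < θ) =>
    fi_step hmin hA hr h𝒰 hκ hL hθ
  set z := (limsup (fun N : ℕ => (homOrder (iterCover h 𝒰 N) : ℝ≥0∞) / N) atTop).toReal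
  set δ := δ'.toReal
  have hδ0 : 0 ≤ δ := ENNReal.toReal_nonneg
  set c : ℝ := κ / (2 * κ + 1) with hc
  have hc0 : 0 ≤ c := by positivity
  have hc1 : c ≤ 1 := by
    rw [hc, div_le_one (by positivity)]
    linarith
  have hmain : 2 * κ * z - (2 * κ - c) * δ ≤ r := by
    refine le_of_forall_pos_le_add fun θ hθ => ?_
    have hη : 0 < θ / (8 * κ) := by positivity
    set η : ℝ := θ / (8 * κ) with hηd
    have hη2 : 2 * κ * η = θ / 4 := by
      rw [hηd]
      field_simp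
      norm_num
    have h1 : ∃ᶠ N : ℕ in atTop, δ - η ≤ (coverDim (iterCover h 𝒰 N) : ℝ) / N := by
      rcases lt_or_ge (δ - η) 0 with h0 | h0
      · exact Frequently.of_forall fun N => h0.le.trans (by positivity)
      · have hlt : ENNReal.ofReal (δ - η) < δ' := by
          rw [hδe]
          exact (ENNReal.ofReal_lt_ofReal_iff (by linarith)).2 (by linarith)
        refine ((frequently_lt_of_lt_limsup (by isBoundedDefault) hlt).and_eventually
          (eventually_gt_atTop 0)).mono fun N hN => ?_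
        have h2 := ENNReal.toReal_mono (ENNReal.div_ne_top (ENNReal.natCast_ne_top _)
          (Nat.cast_ne_zero.2 hN.2.ne')) hN.1.le
        rw [ENNReal.toReal_ofReal h0, ENNReal.toReal_div, ENNReal.toReal_natCast,
          ENNReal.toReal_natCast] at h2
        exact h2
    have h2 : ∀ᶠ N : ℕ in atTop, (coverDim (iterCover h 𝒰 N) : ℝ) / N ≤ δ + η := by
      have hlt : δ' < ENNReal.ofReal (δ + η) := by
        rw [hδe]
        exact (ENNReal.ofReal_lt_ofReal_iff (by linarith)).2 (by linarith)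
      refine (eventually_lt_of_limsup_lt hlt (by isBoundedDefault)).mono fun N hN => ?_
      have h3 := ENNReal.toReal_mono ENNReal.ofReal_ne_top hN.le
      rw [ENNReal.toReal_ofReal (by linarith), ENNReal.toReal_div, ENNReal.toReal_natCast,
        ENNReal.toReal_natCast] at h3
      exact h3
    obtain ⟨L, hL1, hL2, hL3, hL0⟩ := (h1.and_eventually (h2.and
      ((eventually_ge_atTop ⌈12 * κ / θ⌉₊).and (eventually_gt_atTop 0)))).exists
    have hL' : (0 : ℝ) < L := Nat.cast_pos.2 hL0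
    have hL4 : 12 * (κ / L : ℝ) ≤ θ := by
      have h3 := Nat.ceil_le.1 hL3
      rw [div_le_iff₀ hθ] at h3
      rw [← mul_div_assoc, div_le_iff₀ hL']
      linarith
    have hL5 : (1 / L : ℝ) * κ = κ / L := by ring
    set n := coverDim (iterCover h 𝒰 L) with hn
    set t := (n + 1) / (2 * κ + 1) with ht
    have htn : ((n + 1 : ℕ) : ℝ) < ((2 * κ + 1) * (t + 1) : ℕ) :=
      Nat.cast_lt.2 (Nat.lt_mul_div_succ (n + 1) (by omega))
    push_cast at htn
    -- `κ t / L ≥ c (n+1)/L - κ/L`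
    have hb : c * ((n + 1) / L) - κ / L ≤ κ * (t : ℝ) / L := by
      have e1 : c * ((n + 1) / L) - κ / L = κ * ((n + 1) / (2 * κ + 1) - 1) / L := by
        rw [hc]
        ring
      rw [e1]
      refine div_le_div_of_nonneg_right (mul_le_mul_of_nonneg_left ?_ (by positivity)) hL'.le
      rw [sub_le_iff_le_add, div_le_iff₀ (by positivity)]
      linarith
    have hy : ((n : ℝ) + 1) / L = n / L + 1 / L := by ring
    have h1L : (0 : ℝ) ≤ 1 / L := by positivity
    rcases hstep L hL0 (θ / 4) (by positivity) with h3 | h3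
    · have h4 : c * (δ - η) ≤ c * ((n + 1) / L) := by
        refine mul_le_mul_of_nonneg_left ?_ hc0
        rw [hy]
        linarith
      have h5 : c * η ≤ 2 * κ * η := mul_le_mul_of_nonneg_right (by linarith) hη.le
      have h6 : 2 * κ * z ≤ 2 * κ * δ := mul_le_mul_of_nonneg_left hzδ' (by positivity)
      have h7 : 0 ≤ (κ / L : ℝ) := by positivity
      linarith
    · have h4 : (2 * κ - c) * ((n + 1) / L) ≤ (2 * κ - c) * (δ + η + 1 / L) := by
        refine mul_le_mul_of_nonneg_left ?_ (by linarith)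
        rw [hy]
        linarith
      have h5 : 0 ≤ c * η := by positivity
      have h6 : 0 ≤ c * (1 / L) := by positivity
      have h7 : 0 ≤ (κ / L : ℝ) := by positivity
      linarith
  exact hmain

theorem key_ineq {X : Type*} [MetricSpace X] [CompactSpace X] [Nonempty X]
    {A : Type*} [CStarAlgebra A] [PartialOrder A] [StarOrderedRing A] {h : X ≃ₜ X}
    (hmin : MarkerProperty h) (hA : IsCrossedProduct h A) {r : ℝ} (hr : IsComparisonBound A r)
    (hfin : meanDim h ≠ ∞) {κ : ℕ} (hκ : 1 ≤ κ) {𝒰 : Set (Set X)} (h𝒰 : IsFinOpenCover 𝒰) :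
    2 * κ * (limsup (fun N : ℕ => (homOrder (iterCover h 𝒰 N) : ℝ≥0∞) / N) atTop).toReal -
      (2 * κ - κ / (2 * κ + 1)) * (meanDim h).toReal ≤ r := by
  have h1 := cover_key hmin hA hr hκ h𝒰
  have hδm : limsup (fun N : ℕ => (coverDim (iterCover h 𝒰 N) : ℝ≥0∞) / N) atTop ≤ meanDim h :=
    le_iSup (fun 𝒱 : {𝒱 : Set (Set X) // IsFinOpenCover 𝒱} =>
      limsup (fun N : ℕ => (coverDim (iterCover h 𝒱.1 N) : ℝ≥0∞) / N) atTop) ⟨𝒰, h𝒰⟩
  have hδm' := ENNReal.toReal_mono hfin hδm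
  have hκ' : (1 : ℝ) ≤ κ := Nat.one_le_cast.2 hκ
  have hc1 : (κ / (2 * κ + 1) : ℝ) ≤ 1 := by
    rw [div_le_one (by positivity)]
    linarith
  have h3 := mul_le_mul_of_nonneg_left hδm' (a := (2 * κ - κ / (2 * κ + 1) : ℝ)) (by linarith)
  linarith

theorem hom_ineq {X : Type*} [TopologicalSpace X] [CompactSpace X]
    [TopologicalSpace.MetrizableSpace X] [Nonempty X]
    {A : Type*} [CStarAlgebra A] [PartialOrder A] [StarOrderedRing A] {h : X ≃ₜ X}
    (hmin : MarkerProperty h) (hA : IsCrossedProduct h A) (hfin : meanDim h ≠ ∞) {κ : ℕ}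
    (hκ : 1 ≤ κ) :
    ENNReal.ofReal (2 * κ * (homMeanDim h).toReal -
      (2 * κ - κ / (2 * κ + 1)) * (meanDim h).toReal) ≤ radiusOfComparison A := by
  let _ := TopologicalSpace.metrizableSpaceMetric X
  have hκ' : (1 : ℝ) ≤ κ := Nat.one_le_cast.2 hκ
  refine le_iInf fun r => ENNReal.ofReal_le_ofReal ?_
  have hkey := fun (𝒰 : {𝒰 : Set (Set X) // IsFinOpenCover 𝒰}) =>
    key_ineq hmin hA r.2 hfin hκ 𝒰.2
  set m := (meanDim h).toReal
  have hm0 : 0 ≤ m := ENNReal.toReal_nonneg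
  have hc1 : (κ / (2 * κ + 1) : ℝ) ≤ 1 := by
    rw [div_le_one (by positivity)]
    linarith
  set c : ℝ := κ / (2 * κ + 1) with hc
  have hr0 : 0 ≤ r.1 := r.2.1
  have hB : 0 ≤ (r.1 + (2 * κ - c) * m) / (2 * κ) := by
    have : 0 ≤ (2 * κ - c) * m := mul_nonneg (by linarith) hm0
    positivity
  have h1 : homMeanDim h ≤ ENNReal.ofReal ((r.1 + (2 * κ - c) * m) / (2 * κ)) := by
    refine iSup_le fun 𝒰 => ?_
    have hfin' : limsup (fun N : ℕ => (homOrder (iterCover h 𝒰.1 N) : ℝ≥0∞) / N) atTop ≠ ∞ :=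
      ne_top_of_le_ne_top hfin ((le_iSup (fun 𝒱 : {𝒱 : Set (Set X) // IsFinOpenCover 𝒱} =>
        limsup (fun N : ℕ => (homOrder (iterCover h 𝒱.1 N) : ℝ≥0∞) / N) atTop) 𝒰).trans
        (homMeanDim_le_meanDim h))
    rw [← ENNReal.ofReal_toReal hfin']
    refine ENNReal.ofReal_le_ofReal ?_
    rw [le_div_iff₀ (by positivity)]
    linarith [hkey 𝒰]
  have h2 := ENNReal.toReal_le_of_le_ofReal hB h1
  rw [le_div_iff₀ (by positivity)] at h2
  linarith

theorem hom_main {X : Type*} [TopologicalSpace X] [CompactSpace X]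
    [TopologicalSpace.MetrizableSpace X] [Nonempty X]
    {A : Type*} [CStarAlgebra A] [PartialOrder A] [StarOrderedRing A] {h : X ≃ₜ X}
    (hmin : MarkerProperty h) (hA : IsCrossedProduct h A) (hfin : meanDim h ≠ ∞)
    (heq : homMeanDim h = meanDim h) : meanDim h / 2 ≤ radiusOfComparison A := by
  set m := (meanDim h).toReal with hm
  have e : meanDim h / 2 = ENNReal.ofReal (1 / 2 * m) := by
    rw [one_div, ENNReal.ofReal_mul (by norm_num), hm, ENNReal.ofReal_toReal hfin,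
      ENNReal.ofReal_inv_of_pos (by norm_num), mul_comm, ENNReal.ofReal_ofNat]
    rfl
  rw [e]
  have ht : Tendsto (fun κ : ℕ => ENNReal.ofReal ((κ / (2 * κ + 1) : ℝ) * m)) atTop
      (𝓝 (ENNReal.ofReal (1 / 2 * m))) := by
    refine ENNReal.tendsto_ofReal (Tendsto.mul_const m ?_)
    have h1 : Tendsto (fun κ : ℕ => 1 / 2 - 1 / 2 * (1 / ((κ : ℝ) + 1 / 2)) * (1 / 2)) atTop
        (𝓝 (1 / 2 - 1 / 2 * 0 * (1 / 2))) := by
      refine tendsto_const_nhds.sub ((Tendsto.const_mul _ ?_).mul_const _)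
      simp only [one_div]
      exact tendsto_inv_atTop_zero.comp
        (tendsto_atTop_add_const_right _ _ tendsto_natCast_atTop_atTop)
    rw [mul_zero, zero_mul, sub_zero] at h1
    refine h1.congr fun κ => ?_
    field_simp
    ring
  refine le_of_tendsto ht ((eventually_ge_atTop 1).mono fun κ hκ => ?_)
  refine le_trans (ENNReal.ofReal_le_ofReal (le_of_eq ?_)) (hom_ineq hmin hA hfin hκ)
  rw [heq, ← hm]
  ring

end Vale.Agent.P093.MK
end

section
open Filter Topology Set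
open scoped ENNReal
namespace Vale.Agent.P093.MK
open Vale.Agent.P093.Hom

section Main

variable {X : Type*} [TopologicalSpace X] [CompactSpace X] [TopologicalSpace.MetrizableSpace X]
  [Nonempty X] {A : Type*} [CStarAlgebra A] [PartialOrder A] [StarOrderedRing A] {h : X ≃ₜ X}

theorem cover_bound (hmin : MarkerProperty h) (hA : IsCrossedProduct h A) {𝒰 : Set (Set X)}
    (h𝒰 : IsFinOpenCover 𝒰) (κ : ℕ) :
    2 * κ * homRate h 𝒰 ≤
      radiusOfComparison A + κ * (4 * κ + 1) / (2 * κ + 1) * coverRate h 𝒰 := by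
  rcases Nat.eq_zero_or_pos κ with rfl | hκ
  · simp
  let _ := TopologicalSpace.metrizableSpaceMetric X
  have hδ := coverRate_ne_top h h𝒰
  have hz := ne_top_of_le_ne_top hδ (homRate_le h h𝒰)
  rw [← tsub_le_iff_right]
  refine le_iInf fun r => ?_
  rw [tsub_le_iff_right]
  have h1 : 2 * κ * (homRate h 𝒰).toReal - (2 * κ - κ / (2 * κ + 1)) * (coverRate h 𝒰).toReal ≤
      r.1 := cover_key hmin hA r.2 hκ h𝒰
  have hr0 : 0 ≤ r.1 := r.2.1
  have e : (2 * κ - κ / (2 * κ + 1) : ℝ) = κ * (4 * κ + 1) / (2 * κ + 1) := by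
    field_simp
    ring
  rw [e] at h1
  have h2 : 2 * κ * (homRate h 𝒰).toReal ≤
      r.1 + κ * (4 * κ + 1) / (2 * κ + 1) * (coverRate h 𝒰).toReal := by linarith
  have h3 := ENNReal.ofReal_le_ofReal h2
  rw [ENNReal.ofReal_add hr0 (by positivity), ENNReal.ofReal_mul (by positivity),
    ENNReal.ofReal_mul (by positivity), ENNReal.ofReal_mul (by positivity),
    ENNReal.ofReal_toReal hz, ENNReal.ofReal_toReal hδ, ENNReal.ofReal_div_of_pos (by positivity),
    ENNReal.ofReal_mul (by positivity), ENNReal.ofReal_add (by positivity) zero_le_one,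
    ENNReal.ofReal_add (by positivity) zero_le_one, ENNReal.ofReal_mul (by positivity),
    ENNReal.ofReal_mul (by positivity), ENNReal.ofReal_natCast, ENNReal.ofReal_one,
    ENNReal.ofReal_ofNat, ENNReal.ofReal_ofNat] at h3
  exact h3

theorem mean_bound (hmin : MarkerProperty h) (hA : IsCrossedProduct h A) (κ : ℕ) :
    2 * κ * homMeanDim h ≤
      radiusOfComparison A + κ * (4 * κ + 1) / (2 * κ + 1) * meanDim h := by
  rw [homMeanDim, ENNReal.mul_iSup]
  refine iSup_le fun 𝒰 => (cover_bound hmin hA 𝒰.2 κ).trans ?_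
  gcongr
  exact coverRate_le_meanDim h 𝒰.2

theorem detected_bound (hmin : MarkerProperty h) (hA : IsCrossedProduct h A)
    (hd : HomDetected h) : meanDim h / 2 ≤ radiusOfComparison A := by
  rcases eq_or_ne (radiusOfComparison A) ∞ with hR | hR
  · rw [hR]
    exact le_top
  rw [ENNReal.div_le_iff two_ne_zero ENNReal.ofNat_ne_top]
  refine le_of_forall_lt_imp_le_of_dense fun c hc => ?_
  have hc' : c ≠ ∞ := hc.ne_top
  by_contra hcon
  push Not at hcon
  have h0 : (radiusOfComparison A).toReal * 2 < c.toReal := by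
    have h1 := ENNReal.toReal_strict_mono hc' hcon
    rwa [ENNReal.toReal_mul, ENNReal.toReal_ofNat] at h1
  set R := (radiusOfComparison A).toReal with hRd
  set c' := c.toReal
  have hR0 : 0 ≤ R := ENNReal.toReal_nonneg
  obtain ⟨κ, hκ⟩ := exists_nat_gt ((R + c') / (c' - R * 2))
  rw [div_lt_iff₀ (by linarith)] at hκ
  have hκ1 : 1 ≤ κ := by
    rcases Nat.eq_zero_or_pos κ with rfl | h1
    · simp only [Nat.cast_zero, zero_mul] at hκ
      linarith
    · exact h1
  have hκ' : (1 : ℝ) ≤ κ := Nat.one_le_cast.2 hκ1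
  set θ : ℝ := 1 / (2 * κ * (2 * κ + 1)) with hθ
  have hθ0 : 0 < θ := by positivity
  have hθ1 : θ ≤ 1 := by
    rw [hθ, div_le_one (by positivity)]
    nlinarith
  have hη : ENNReal.ofReal (1 - θ) < 1 := by
    rw [← ENNReal.ofReal_one]
    exact (ENNReal.ofReal_lt_ofReal_iff one_pos).2 (by linarith)
  obtain ⟨𝒰, h𝒰, h1, h2⟩ := hd c hc _ hη
  have hδ := coverRate_ne_top h h𝒰
  have hz := ne_top_of_le_ne_top hδ (homRate_le h h𝒰)
  have h3 := ENNReal.toReal_mono (by
    exact ENNReal.add_ne_top.2 ⟨hR, ENNReal.mul_ne_top (ENNReal.div_ne_top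
      (ENNReal.mul_ne_top (ENNReal.natCast_ne_top _) (by finiteness)) (by positivity)) hδ⟩)
    (cover_bound hmin hA h𝒰 κ)
  rw [ENNReal.toReal_add hR (ENNReal.mul_ne_top (ENNReal.div_ne_top
      (ENNReal.mul_ne_top (ENNReal.natCast_ne_top _) (by finiteness)) (by positivity)) hδ)] at h3
  have h1' := ENNReal.toReal_strict_mono hδ h1
  have h2' := ENNReal.toReal_mono hz h2
  rw [ENNReal.toReal_mul, ENNReal.toReal_ofReal (by linarith)] at h2'
  have e1 : (2 * (κ : ℝ≥0∞) * homRate h 𝒰).toReal = 2 * κ * (homRate h 𝒰).toReal := by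
    rw [ENNReal.toReal_mul, ENNReal.toReal_mul, ENNReal.toReal_ofNat, ENNReal.toReal_natCast]
  have e2 : ((κ : ℝ≥0∞) * (4 * κ + 1) / (2 * κ + 1) * coverRate h 𝒰).toReal =
      κ * (4 * κ + 1) / (2 * κ + 1) * (coverRate h 𝒰).toReal := by
    rw [ENNReal.toReal_mul, ENNReal.toReal_div, ENNReal.toReal_mul,
      ENNReal.toReal_add (by finiteness) ENNReal.one_ne_top,
      ENNReal.toReal_add (by finiteness) ENNReal.one_ne_top, ENNReal.toReal_mul,
      ENNReal.toReal_mul, ENNReal.toReal_ofNat, ENNReal.toReal_ofNat, ENNReal.toReal_natCast,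
      ENNReal.toReal_one]
  rw [e1, e2, ← hRd] at h3
  set δ := (coverRate h 𝒰).toReal
  set z := (homRate h 𝒰).toReal
  have h4 : 2 * κ * ((1 - θ) * δ) ≤ 2 * κ * z := mul_le_mul_of_nonneg_left h2' (by positivity)
  have e3 : 2 * κ * ((1 - θ) * δ) = κ * (4 * κ + 1) / (2 * κ + 1) * δ +
      (κ - 1) * δ / (2 * κ + 1) := by
    rw [hθ]
    field_simp
    ring
  have h5 : (κ - 1) * δ / (2 * κ + 1) ≤ R := by linarith
  rw [div_le_iff₀ (by positivity)] at h5
  have h6 : (κ - 1) * c' ≤ (κ - 1) * δ := mul_le_mul_of_nonneg_left h1'.le (by linarith)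
  linarith

end Main

end Vale.Agent.P093.MK
end

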