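import Vale.Agent.P093.H598.Marker

/-! Systems with the marker property. -/

open Filter Topology Set

namespace Vale.Agent.P093.MK

theorem zpow_add_app {X : Type*} [TopologicalSpace X] (h : X ≃ₜ X) (i j : ℤ) (x : X) :
    (h ^ (i + j)) x = (h ^ i) ((h ^ j) x) := by
  rw [zpow_add]
  rfl

/-- aperiodic points have neighbourhoods disjoint from their first translates -/
theorem exists_sep_nhds {X : Type*} [TopologicalSpace X] [T2Space X] (h : X ≃ₜ X)
    (hp : ∀ (n : ℤ) (x : X), 0 < n → (h ^ n) x ≠ x) (L : ℕ) (x₀ : X) :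
    ∃ V : Set X, IsOpen V ∧ x₀ ∈ V ∧ ∀ n : ℤ, 0 < n → n < L → ∀ x ∈ V, (h ^ n) x ∉ V := by
  have h1 : ∀ n : ℤ, 0 < n → ∃ V : Set X, IsOpen V ∧ x₀ ∈ V ∧ ∀ x ∈ V, (h ^ n) x ∉ V := by
    intro n hn
    obtain ⟨U, V, hU, hV, hxU, hxV, hUV⟩ := t2_separation (hp n x₀ hn)
    refine ⟨V ∩ (h ^ n) ⁻¹' U, hV.inter (hU.preimage (h ^ n).continuous), ⟨hxV, hxU⟩, ?_⟩
    rintro x ⟨-, hx⟩ ⟨hx', -⟩
    exact Set.disjoint_left.1 hUV hx hx'
  choose V hV using h1
  refine ⟨⋂ n ∈ (Finset.Ioo (0 : ℤ) L).attach, V n.1 (Finset.mem_Ioo.1 n.2).1, ?_, ?_, ?_⟩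
  · exact isOpen_biInter_finset fun n _ => (hV n.1 _).1
  · simp only [Set.mem_iInter]
    exact fun n _ => (hV n.1 _).2.1
  · intro n hn hnL x hx hx'
    simp only [Set.mem_iInter] at hx hx'
    have hmem : n ∈ Finset.Ioo (0 : ℤ) L := Finset.mem_Ioo.2 ⟨hn, hnL⟩
    exact (hV n hn).2.2 x (hx ⟨n, hmem⟩ (Finset.mem_attach _ _))
      (hx' ⟨n, hmem⟩ (Finset.mem_attach _ _))

/-- infinite minimal systems have the marker property -/
theorem marker_of_minimal {X : Type*} [TopologicalSpace X] [CompactSpace X] [T2Space X]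
    [Infinite X] (h : X ≃ₜ X) (hmin : IsMinimalHomeo h) : MarkerProperty h := by
  intro L
  obtain ⟨x₀⟩ : Nonempty X := inferInstance
  obtain ⟨V, hVo, hx₀, hV⟩ := exists_sep_nhds h
    (fun n x hn => Vale.Agent.P093.not_periodic h hmin x hn) L x₀
  refine ⟨V, hVo, hV, fun x => ?_⟩
  obtain ⟨y, hy, hyV⟩ := (hmin x).exists_mem_open hVo ⟨x₀, hx₀⟩
  obtain ⟨i, rfl⟩ := hy
  exact ⟨i, hyV⟩

/-- extensions of systems with the marker property -/
theorem marker_of_factor {X Y : Type*} [TopologicalSpace X] [TopologicalSpace Y] {h : X ≃ₜ X}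
    {g : Y ≃ₜ Y} {π : X → Y} (hπ : Continuous π) (hc : ∀ x, π (h x) = g (π x))
    (hg : MarkerProperty g) : MarkerProperty h := by
  have hcn : ∀ (n : ℕ) (x : X), π ((h ^ (n : ℤ)) x) = (g ^ (n : ℤ)) (π x) := by
    intro n
    induction n with
    | zero => intro x; simp
    | succ n ih =>
      intro x
      have e1 : (h ^ ((n + 1 : ℕ) : ℤ)) x = (h ^ (n : ℤ)) (h x) := by
        rw [Nat.cast_add, Nat.cast_one, zpow_add_app, zpow_one]
      have e2 : (g ^ ((n + 1 : ℕ) : ℤ)) (π x) = (g ^ (n : ℤ)) (g (π x)) := by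
        rw [Nat.cast_add, Nat.cast_one, zpow_add_app, zpow_one]
      rw [e1, e2, ih, hc]
  have hcz : ∀ (n : ℤ) (x : X), π ((h ^ n) x) = (g ^ n) (π x) := by
    intro n x
    rcases Int.le_total 0 n with h0 | h0
    · obtain ⟨m, rfl⟩ := Int.eq_ofNat_of_zero_le h0
      exact hcn m x
    · obtain ⟨m, hm⟩ := Int.eq_ofNat_of_zero_le (Int.neg_nonneg_of_nonpos h0)
      have h1 := hcn m ((h ^ n) x)
      rw [← hm, ← zpow_add_app, neg_add_cancel, zpow_zero] at h1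
      have h2 : (g ^ n) (π x) = (g ^ n) ((g ^ (-n)) (π ((h ^ n) x))) := by
        rw [← h1]; rfl
      rw [h2, ← zpow_add_app, add_neg_cancel, zpow_zero]
      rfl
  intro L
  obtain ⟨V, hVo, hV, hcov⟩ := hg L
  refine ⟨π ⁻¹' V, hVo.preimage hπ, fun n hn hnL x hx hx' => ?_, fun x => ?_⟩
  · refine hV n hn hnL (π x) hx ?_
    rw [← hcz]
    exact hx'
  · obtain ⟨i, hi⟩ := hcov (π x)
    exact ⟨i, by rw [mem_preimage, hcz]; exact hi⟩

/-- aperiodic systems on totally disconnected spaces have the marker property -/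
theorem marker_of_totallyDisconnected {X : Type*} [TopologicalSpace X] [CompactSpace X]
    [T2Space X] [TotallyDisconnectedSpace X] (h : X ≃ₜ X)
    (hp : ∀ (n : ℤ) (x : X), 0 < n → (h ^ n) x ≠ x) : MarkerProperty h := by
  classical
  intro L
  have h0 : ∀ x : X, ∃ U : Set X, IsClopen U ∧ x ∈ U ∧
      ∀ n : ℤ, 0 < n → n < L → ∀ y ∈ U, (h ^ n) y ∉ U := by
    intro x
    obtain ⟨V, hVo, hxV, hV⟩ := exists_sep_nhds h hp L x
    obtain ⟨U, hU, hxU, hUV⟩ := compact_exists_isClopen_in_isOpen hVo hxV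
    exact ⟨U, hU, hxU, fun n hn hnL y hy hy' => hV n hn hnL y (hUV hy) (hUV hy')⟩
  choose U hU hxU hUs using h0
  obtain ⟨t, ht⟩ := isCompact_univ.elim_finite_subcover U (fun x => (hU x).isOpen)
    fun x _ => Set.mem_iUnion.2 ⟨x, hxU x⟩
  have key : ∀ s : Finset X, ∃ V : Set X, IsClopen V ∧
      (∀ n : ℤ, 0 < n → n < L → ∀ x ∈ V, (h ^ n) x ∉ V) ∧
      ∀ y ∈ s, ∀ x ∈ U y, ∃ i : ℤ, (h ^ i) x ∈ V := by
    intro s
    induction s using Finset.induction_on with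
    | empty => exact ⟨∅, isClopen_empty, fun _ _ _ _ hx => hx.elim, fun _ hy => by simp at hy⟩
    | insert a s ha ih =>
      obtain ⟨V, hVc, hVs, hV⟩ := ih
      let T : Set X := ⋃ n ∈ Finset.Ioo (-(L : ℤ)) L, (h ^ n) ⁻¹' V
      have hT : IsClopen T := by
        refine ⟨?_, ?_⟩
        · exact isClosed_biUnion_finset fun n _ => hVc.isClosed.preimage (h ^ n).continuous
        · exact isOpen_biUnion fun n _ => hVc.isOpen.preimage (h ^ n).continuous
      refine ⟨V ∪ (U a \ T), hVc.union ((hU a).diff hT), ?_, ?_⟩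
      · rintro n hn hnL x (hx | ⟨hx, hxT⟩) (hx' | ⟨hx', hxT'⟩)
        · exact hVs n hn hnL x hx hx'
        · refine hxT' (Set.mem_biUnion (x := -n) (Finset.mem_coe.2 (Finset.mem_Ioo.2 ⟨by omega, by omega⟩)) ?_)
          rw [mem_preimage, ← zpow_add_app, neg_add_cancel, zpow_zero]
          exact hx
        · exact hxT (Set.mem_biUnion (x := n) (Finset.mem_coe.2 (Finset.mem_Ioo.2 ⟨by omega, by omega⟩)) hx')
        · exact hUs a n hn hnL x hx hx'
      · intro y hy x hx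
        rcases Finset.mem_insert.1 hy with rfl | hy
        · by_cases hxT : x ∈ T
          · obtain ⟨n, -, hn⟩ := Set.mem_iUnion₂.1 hxT
            exact ⟨n, Or.inl hn⟩
          · exact ⟨0, Or.inr ⟨hx, hxT⟩⟩
        · obtain ⟨i, hi⟩ := hV y hy x hx
          exact ⟨i, Or.inl hi⟩
  obtain ⟨V, hVc, hVs, hV⟩ := key t
  refine ⟨V, hVc.isOpen, hVs, fun x => ?_⟩
  obtain ⟨y, hy, hxy⟩ := Set.mem_iUnion₂.1 (ht (Set.mem_univ x))
  exact hV y hy x hxy

end Vale.Agent.P093.MK
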