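import Vale.Agent.P093.HB.H6

/-! Monotonicity of the homological mean dimension under sections on finite orbit segments. -/

open Set Filter
open scoped ENNReal

namespace Vale.Agent.P093.SEC

/-- push-forward of ordered chains under a map of vertices -/
noncomputable def push {A B : Type*} (f : A → B) : OChain A →+ OChain B :=
  Finsupp.mapDomain.addMonoidHom (List.map f)

lemma push_apply {A B : Type*} (f : A → B) (c : OChain A) :
    push f c = c.mapDomain (List.map f) := rfl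

lemma push_single {A B : Type*} (f : A → B) (s : List A) (n : ℤ) :
    push f (Finsupp.single s n) = Finsupp.single (s.map f) n := by
  rw [push_apply, Finsupp.mapDomain_single]

lemma extend_push {A B M : Type*} [AddCommGroup M] (f : A → B) (F : List B → M) (c : OChain A) :
    extend F (push f c) = extend (fun s => F (s.map f)) c := by
  unfold extend
  rw [push_apply]
  exact Finsupp.sum_mapDomain_index (h := fun s (n : ℤ) => n • F s) (fun _ => zero_smul _ _)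
    (fun _ _ _ => add_smul _ _ _)

lemma push_extend {V A B : Type*} (f : A → B) (F : List V → OChain A) (c : OChain V) :
    push f (extend F c) = extend (fun s => push f (F s)) c := by
  unfold extend
  rw [map_finsuppSum]
  refine Finsupp.sum_congr fun s _ => ?_
  rw [map_zsmul]

lemma boundary_map {A B : Type*} (f : A → B) (s : List A) :
    simplexBoundary (s.map f) = push f (simplexBoundary s) := by
  unfold simplexBoundary
  rw [List.length_map]
  split_ifs with h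
  · rw [map_zero]
  · rw [map_sum]
    refine Finset.sum_congr rfl fun i _ => ?_
    rw [map_zsmul, push_single, List.eraseIdx_map]

lemma boundary_push {A B : Type*} (f : A → B) (c : OChain A) :
    extend simplexBoundary (push f c) = push f (extend simplexBoundary c) := by
  rw [extend_push, push_extend]
  simp only [boundary_map]

/-- the homological order is natural -/
theorem homOrderLE_pullback {X Y : Type*} [TopologicalSpace X] [TopologicalSpace Y] {s : Y → X}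
    (hs : Continuous s) {𝒲 : Set (Set Y)} {𝒲' : Set (Set X)}
    (hW : ∀ A ∈ 𝒲', ∃ W ∈ 𝒲, s ⁻¹' A ⊆ W) {d : ℕ} (h : HomOrderLE 𝒲' d) : HomOrderLE 𝒲 d := by
  classical
  obtain ⟨𝒢, Φ, h𝒢, hΦ⟩ := h
  choose! σ hσ hσs using hW
  refine ⟨(fun G => s ⁻¹' G) '' 𝒢, fun x => push σ (Φ (x.map s)), ⟨h𝒢.1.image _, ?_, ?_⟩,
    fun x hx hxG => ?_⟩
  · rintro _ ⟨G, hG, rfl⟩
    exact (h𝒢.2.1 G hG).preimage hs
  · rw [eq_univ_iff_forall]
    intro y
    have h1 : s y ∈ ⋃₀ 𝒢 := by rw [h𝒢.2.2]; trivial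
    obtain ⟨G, hG, hy⟩ := h1
    exact ⟨_, ⟨G, hG, rfl⟩, hy⟩
  · have hx' : x.map s ≠ [] := by simpa using hx
    have hxG' : ∃ G ∈ 𝒢, ∀ y ∈ x.map s, y ∈ G := by
      obtain ⟨_, ⟨G, hG, rfl⟩, hy⟩ := hxG
      refine ⟨G, hG, fun y hy' => ?_⟩
      obtain ⟨z, hz, rfl⟩ := List.mem_map.1 hy'
      exact hy z hz
    obtain ⟨h1, h2, h3, h4⟩ := hΦ _ hx' hxG'
    refine ⟨fun l hl => ?_, ?_, fun hl => ?_, fun hl => ?_⟩
    · have hl' := Finsupp.mapDomain_support hl
      rw [Finset.mem_image] at hl'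
      obtain ⟨l', hl', rfl⟩ := hl'
      obtain ⟨e1, e2⟩ := h1 l' hl'
      refine ⟨by rw [List.length_map, e1, List.length_map], fun W hW => ?_⟩
      obtain ⟨A, hA, rfl⟩ := List.mem_map.1 hW
      obtain ⟨e3, e4⟩ := e2 A hA
      exact ⟨hσ A e3, fun y hy => hσs A e3 (e4 (s y) (List.mem_map_of_mem hy))⟩
    · rw [boundary_push, h2, push_extend, boundary_map, extend_push]
    · show (push σ (Φ (x.map s))).sum (fun _ n => n) = 1
      rw [push_apply, Finsupp.sum_mapDomain_index (fun _ => rfl) (fun _ _ _ => rfl)]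
      exact h3 (by rw [List.length_map]; exact hl)
    · show push σ (Φ (x.map s)) = 0
      rw [h4 (by rw [List.length_map]; exact hl), map_zero]

/-- the order is natural -/
theorem coverDim_pullback {X Y : Type*} [TopologicalSpace X] [TopologicalSpace Y] {s : Y → X}
    (hs : Continuous s) {𝒲 : Set (Set Y)} {𝒲' : Set (Set X)}
    (hW : ∀ A ∈ 𝒲', ∃ W ∈ 𝒲, s ⁻¹' A ⊆ W) (hfin : IsFinOpenCover 𝒲') :
    coverDim 𝒲 ≤ coverDim 𝒲' := by
  classical
  have hne : {d : ℕ | ∃ 𝒱 : Set (Set X), IsFinOpenCover 𝒱 ∧ (∀ V ∈ 𝒱, ∃ U ∈ 𝒲', V ⊆ U) ∧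
      ∀ S ⊆ 𝒱, (⋂₀ S).Nonempty → S.encard ≤ d + 1}.Nonempty := by
    refine ⟨𝒲'.ncard, 𝒲', hfin, fun V hV => ⟨V, hV, le_rfl⟩, fun S hS _ => ?_⟩
    refine (Set.encard_le_encard hS).trans ?_
    rw [← hfin.1.cast_ncard_eq]
    exact le_self_add
  obtain ⟨𝒱, h1, h2, h3⟩ := Nat.sInf_mem hne
  refine Nat.sInf_le ⟨(fun V => s ⁻¹' V) '' 𝒱, ⟨h1.1.image _, ?_, ?_⟩, ?_, ?_⟩
  · rintro _ ⟨G, hG, rfl⟩
    exact (h1.2.1 G hG).preimage hs
  · rw [eq_univ_iff_forall]
    intro y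
    have h4 : s y ∈ ⋃₀ 𝒱 := by rw [h1.2.2]; trivial
    obtain ⟨G, hG, hy⟩ := h4
    exact ⟨_, ⟨G, hG, rfl⟩, hy⟩
  · rintro _ ⟨G, hG, rfl⟩
    obtain ⟨U, hU, hGU⟩ := h2 G hG
    obtain ⟨W, hW, hUW⟩ := hW U hU
    exact ⟨W, hW, (preimage_mono hGU).trans hUW⟩
  · intro S hS hSne
    obtain ⟨y, hy⟩ := hSne
    have hS' : ∀ A ∈ S, ∃ V ∈ 𝒱, s ⁻¹' V = A := fun A hA => hS hA
    choose! ρ hρ hρs using hS'
    have hSn : S ⊆ (fun V => s ⁻¹' V) '' (ρ '' S) := by
      intro A hA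
      exact ⟨ρ A, ⟨A, hA, rfl⟩, hρs A hA⟩
    refine (Set.encard_le_encard hSn).trans ((Set.encard_image_le _ _).trans
      (h3 (ρ '' S) ?_ ⟨s y, ?_⟩))
    · rintro _ ⟨A, hA, rfl⟩
      exact hρ A hA
    · rintro _ ⟨A, hA, rfl⟩
      have h5 : y ∈ A := hy A hA
      have h6 : A = s ⁻¹' (ρ A) := (hρs A hA).symm
      rw [h6] at h5
      exact h5

section

variable {X Y : Type*} [TopologicalSpace X] [TopologicalSpace Y] {h : X ≃ₜ X} {g : Y ≃ₜ Y}
  {f : X → Y}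

/-- preimage of a cover -/
def preCover (f : X → Y) (𝒰 : Set (Set Y)) : Set (Set X) := (fun U => f ⁻¹' U) '' 𝒰

theorem preCover_fin (hf : Continuous f) {𝒰 : Set (Set Y)} (h𝒰 : IsFinOpenCover 𝒰) :
    IsFinOpenCover (preCover f 𝒰) := by
  refine ⟨h𝒰.1.image _, ?_, ?_⟩
  · rintro _ ⟨G, hG, rfl⟩
    exact (h𝒰.2.1 G hG).preimage hf
  · rw [eq_univ_iff_forall]
    intro y
    have h4 : f y ∈ ⋃₀ 𝒰 := by rw [h𝒰.2.2]; trivial
    obtain ⟨G, hG, hy⟩ := h4
    exact ⟨_, ⟨G, hG, rfl⟩, hy⟩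

theorem pre_iter {N : ℕ} {s : Y → X} (hfs : ∀ j < N, ∀ y, f ((h ^ j) (s y)) = (g ^ j) y)
    {𝒰 : Set (Set Y)} : ∀ A ∈ iterCover h (preCover f 𝒰) N,
      ∃ W ∈ iterCover g 𝒰 N, s ⁻¹' A ⊆ W := by
  rintro _ ⟨F, hF, rfl⟩
  choose F' hF' hF'' using hF
  refine ⟨_, ⟨F', hF', rfl⟩, ?_⟩
  intro y hy
  simp only [mem_preimage, mem_iInter, Finset.mem_range] at hy ⊢
  intro j hj
  have h1 := hy j hj
  have h2 : F j = f ⁻¹' (F' j) := (hF'' j).symm
  rw [h2, mem_preimage, hfs j hj y] at h1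
  exact h1

/-- sections on finite orbit segments: mean dimensions are monotone -/
theorem meanDims_le [CompactSpace X] [TopologicalSpace.MetrizableSpace X] (hf : Continuous f)
    (s : ℕ → Y → X) (hs : ∀ N, Continuous (s N))
    (hfs : ∀ N, ∀ j < N, ∀ y, f ((h ^ j) (s N y)) = (g ^ j) y) :
    meanDim g ≤ meanDim h ∧ homMeanDim g ≤ homMeanDim h := by
  constructor
  · refine iSup_le fun 𝒰 => ?_
    refine le_trans ?_ (le_iSup (fun 𝒱 : {𝒱 : Set (Set X) // IsFinOpenCover 𝒱} =>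
      limsup (fun N : ℕ => (coverDim (iterCover h 𝒱.1 N) : ℝ≥0∞) / N) atTop)
      ⟨preCover f 𝒰.1, preCover_fin hf 𝒰.2⟩)
    refine limsup_le_limsup (Eventually.of_forall fun N => ?_)
    refine ENNReal.div_le_div_right (Nat.cast_le.2 ?_) _
    exact coverDim_pullback (hs N) (pre_iter (hfs N)) (T.att_iterCover h (preCover_fin hf 𝒰.2) N)
  · refine iSup_le fun 𝒰 => ?_
    refine le_trans ?_ (le_iSup (fun 𝒱 : {𝒱 : Set (Set X) // IsFinOpenCover 𝒱} =>
      limsup (fun N : ℕ => (homOrder (iterCover h 𝒱.1 N) : ℝ≥0∞) / N) atTop)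
      ⟨preCover f 𝒰.1, preCover_fin hf 𝒰.2⟩)
    refine limsup_le_limsup (Eventually.of_forall fun N => ?_)
    refine ENNReal.div_le_div_right (Nat.cast_le.2 ?_) _
    refine Nat.sInf_le (homOrderLE_pullback (hs N) (pre_iter (hfs N)) ?_)
    exact T.att_homOrderLE (T.att_iterCover h (preCover_fin hf 𝒰.2) N)

end

end Vale.Agent.P093.SEC
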