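import Vale.Agent.P093.H598.MarkerEx

/-! Infinite mean dimension: homology need only see five sixths of it. -/

open Filter Topology Set
open scoped ENNReal

namespace Vale.Agent.P093.MK

theorem rc_top_of_ratio {X : Type*} [TopologicalSpace X] [CompactSpace X]
    [TopologicalSpace.MetrizableSpace X] [Nonempty X] {A : Type*} [CStarAlgebra A]
    [PartialOrder A] [StarOrderedRing A] {h : X ≃ₜ X} (hm : MarkerProperty h)
    (hA : IsCrossedProduct h A) {η : ℝ≥0∞} (hη : 5 / 6 < η)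
    (H : ∀ c : ℝ≥0∞, c < ∞ → ∃ 𝒰 : Set (Set X), IsFinOpenCover 𝒰 ∧ c < coverRate h 𝒰 ∧
      η * coverRate h 𝒰 ≤ homRate h 𝒰) : radiusOfComparison A = ∞ := by
  by_contra hR
  obtain ⟨R, hRd⟩ : ∃ R, R = (radiusOfComparison A).toReal := ⟨_, rfl⟩
  have hR0 : 0 ≤ R := by rw [hRd]; exact ENNReal.toReal_nonneg
  have key : ∀ 𝒰 : Set (Set X), IsFinOpenCover 𝒰 → 0 < coverRate h 𝒰 →
      η * coverRate h 𝒰 ≤ homRate h 𝒰 → η ≠ ∞ ∧
        2 * (η.toReal * (coverRate h 𝒰).toReal) ≤ R + 5 / 3 * (coverRate h 𝒰).toReal := by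
    intro 𝒰 h𝒰 h0 h1
    have hδ := Hom.coverRate_ne_top h h𝒰
    have hz := ne_top_of_le_ne_top hδ (Hom.homRate_le h h𝒰)
    have hηt : η ≠ ∞ := by
      rintro rfl
      rw [ENNReal.top_mul h0.ne'] at h1
      exact hz (top_le_iff.1 h1)
    refine ⟨hηt, ?_⟩
    have h2 := cover_bound hm hA h𝒰 1
    have h3 : 2 * (η * coverRate h 𝒰) ≤ radiusOfComparison A + 5 / 3 * coverRate h 𝒰 := by
      refine (mul_le_mul_right h1 2).trans ?_
      have e1 : (2 * ((1 : ℕ) : ℝ≥0∞) * homRate h 𝒰) = 2 * homRate h 𝒰 := by simp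
      have e2 : (((1 : ℕ) : ℝ≥0∞) * (4 * ((1 : ℕ) : ℝ≥0∞) + 1) / (2 * ((1 : ℕ) : ℝ≥0∞) + 1)) =
          5 / 3 := by
        norm_num
      rw [e1, e2] at h2
      exact h2
    have h53 : (5 / 3 : ℝ≥0∞) ≠ ∞ := ENNReal.div_ne_top (by norm_num) (by norm_num)
    have h4 := ENNReal.toReal_mono (ENNReal.add_ne_top.2 ⟨hR, ENNReal.mul_ne_top h53 hδ⟩) h3
    rw [ENNReal.toReal_add hR (ENNReal.mul_ne_top h53 hδ), ENNReal.toReal_mul, ENNReal.toReal_mul,
      ENNReal.toReal_mul, ENNReal.toReal_div, ← hRd] at h4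
    simpa using h4
  obtain ⟨𝒰₀, h𝒰₀, hc₀, hr₀⟩ := H 0 ENNReal.zero_lt_top
  have hηt := (key 𝒰₀ h𝒰₀ hc₀ hr₀).1
  have hη' : 5 / 6 < η.toReal := by
    have h1 := ENNReal.toReal_strict_mono hηt hη
    rw [ENNReal.toReal_div] at h1
    simpa using h1
  obtain ⟨𝒰, h𝒰, hc, hr⟩ := H (ENNReal.ofReal (R / (2 * η.toReal - 5 / 3) + 1))
    ENNReal.ofReal_lt_top
  have hpos : 0 < 2 * η.toReal - 5 / 3 := by linarith
  have hδ := Hom.coverRate_ne_top h h𝒰
  have h0 : 0 < coverRate h 𝒰 := bot_le.trans_lt hc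
  have h1 := (key 𝒰 h𝒰 h0 hr).2
  have h2 : R / (2 * η.toReal - 5 / 3) + 1 < (coverRate h 𝒰).toReal := by
    have := ENNReal.toReal_strict_mono hδ hc
    rwa [ENNReal.toReal_ofReal (by positivity)] at this
  have h3 : (2 * η.toReal - 5 / 3) * (coverRate h 𝒰).toReal ≤ R := by linarith
  have h4 : (2 * η.toReal - 5 / 3) * (R / (2 * η.toReal - 5 / 3) + 1) <
      (2 * η.toReal - 5 / 3) * (coverRate h 𝒰).toReal := mul_lt_mul_of_pos_left h2 hpos
  have h5 : (2 * η.toReal - 5 / 3) * (R / (2 * η.toReal - 5 / 3) + 1) =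
      R + (2 * η.toReal - 5 / 3) := by
    rw [mul_add, mul_div_cancel₀ _ hpos.ne', mul_one]
  linarith

end Vale.Agent.P093.MK
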